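import Vale.Agent.P167.H174.BD.Lit

/-!
# P167, general `q`, [BAD]: the frozen squares and the events depend on the history only
-/

set_option autoImplicit false
set_option linter.unusedVariables false
set_option linter.unusedSectionVars false

namespace Vale.Agent.P167.H174.BD

open Set
open Relation (ReflTransGen)
open Vale.Agent.P145.FB (PStep)
open Vale.Agent.P167.FKA (Cor)
open Vale.Agent.P167.E6 Vale.Agent.P167.E2
open Vale.Agent.P167.H718 (Dq)
open Vale.Agent.P167.H634 (SqD RO LO)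
open Vale.Agent.P167.H72.SD (dk Wr NSup NSlo)
open Vale.Agent.P167.H713.Q (Dn Cn Sd tip Cfl Bad)
open Vale.Agent.P167.H161 (Rd mem_Rd run_agree_iff next_ne)
open Vale.Agent.P167.H411

variable {n : ℕ} {p : ZMod n → ℤ × ℤ} {S : Finset (ℤ × ℤ)} {k : ℕ} {A A' : Finset (Sym2 (ℤ × ℤ))}
  {j : ℕ} {δ : ℝ}

section

variable (hp : IsPolygon p) (hS : Encloses p S) (hk : k < n) (hA : A ⊆ edges S)
  (hA' : A' ⊆ edges S) (h : ∀ i ≤ j, run p k A' (i - 1) = run p k A (i - 1))
include hp hS hk hA hA' h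

theorem run_ag {i : ℕ} (hi : i < j) : run p k A' i = run p k A i := by
  have := h (i + 1) hi
  rwa [Nat.add_sub_cancel] at this

theorem run_ag' {i : ℕ} (hi : i ≤ j - 1) : run p k A' i = run p k A i := by
  rcases Nat.eq_zero_or_pos i with rfl | h0
  · rfl
  · exact run_ag hp hS hk hA hA' h (by omega)

theorem rd_agree : Rd p k S A' j = Rd p k S A j := by
  ext q
  rw [mem_Rd hA', mem_Rd hA]
  refine and_congr_right fun _ => exists_congr fun i => and_congr_right fun hi => ?_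
  rw [run_ag hp hS hk hA hA' h (by omega)]

theorem dk_agree : dk p k S A' j = dk p k S A j := by
  unfold dk
  rw [rd_agree hp hS hk hA hA' h]

theorem pl_agree {t : ℝ} (ht : t ∈ Icc 0 (j : ℝ)) : pl p k δ A' t = pl p k δ A t := by
  change (δ : ℂ) * lin (xv p k A') t = (δ : ℂ) * lin (xv p k A) t
  rw [lin_congr (xv_agree hp hS (by omega) hA hA' h) ht]

theorem Dn_agree : Dn p k S A' j δ = Dn p k S A j δ := by
  unfold Dn
  congr 1
  exact Set.image_congr fun t ht => pl_agree hp hS hk hA hA' h ht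

theorem tip_agree : tip p k A' j δ = tip p k A j δ :=
  pl_agree hp hS hk hA hA' h ⟨Nat.cast_nonneg j, le_rfl⟩

/-- The states of the read edges. -/
theorem ahead_agree {i : ℕ} (hi : i < j - 1) :
    (ahead (run p k A i) ∈ wiredOpen p k A' ↔ ahead (run p k A i) ∈ wiredOpen p k A) := by
  have h1 := run_ag hp hS hk hA hA' h (i := i) (by omega)
  have h2 := run_ag hp hS hk hA hA' h (i := i + 1) (by omega)
  rw [run_succ, run_succ, h1] at h2
  exact next_ne h2

theorem RO_agree : RO p k S A' δ (j - 1) = RO p k S A δ (j - 1) := by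
  ext z
  unfold RO
  simp only [Set.mem_ofPred_eq]
  refine or_congr ?_ (or_congr ?_ Iff.rfl)
  · refine exists_congr fun i => and_congr_right fun hi => ?_
    rw [run_ag' hp hS hk hA hA' h (i := i) hi]
  · refine exists_congr fun i => and_congr_right fun hi => ?_
    rw [run_ag hp hS hk hA hA' h (i := i) (by omega), ahead_agree hp hS hk hA hA' h hi]

theorem LO_agree : LO p k A' δ (j - 1) = LO p k A δ (j - 1) := by
  ext z
  unfold LO
  simp only [Set.mem_ofPred_eq]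
  refine or_congr ?_ (or_congr Iff.rfl (or_congr ?_ Iff.rfl))
  · refine exists_congr fun i => and_congr_right fun hi => ?_
    rw [run_ag' hp hS hk hA hA' h (i := i) hi]
  · refine exists_congr fun i => and_congr_right fun hi => ?_
    rw [run_ag hp hS hk hA hA' h (i := i) (by omega), ahead_agree hp hS hk hA hA' h hi]

theorem Sd_agree (c : Bool) : Sd p k S A' j δ c = Sd p k S A j δ c := by
  unfold Sd
  rw [RO_agree hp hS hk hA hA' h, LO_agree hp hS hk hA hA' h]

theorem Cn_agree (z : ℤ × ℤ) (R : ℝ) (u : ℂ) : Cn p k S A' j δ z R u = Cn p k S A j δ z R u := by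
  unfold Cn
  rw [Dn_agree hp hS hk hA hA' h]

theorem Cfl_agree {c : Bool} {z : ℤ × ℤ} {ρ R : ℕ} {u w : ℂ} :
    Cfl p k S A' j δ c z ρ R u w ↔ Cfl p k S A j δ c z ρ R u w := by
  constructor
  · rintro ⟨h1, h2, h3, h4, h5, h6, h7, h8⟩
    simp only [Dn_agree hp hS hk hA hA' h, Cn_agree hp hS hk hA hA' h,
      Sd_agree hp hS hk hA hA' h, tip_agree hp hS hk hA hA' h] at h1 h2 h5 h6 h7 h8
    exact ⟨h1, h2, h3, h4, h5, h6, h7, h8⟩
  · rintro ⟨h1, h2, h3, h4, h5, h6, h7, h8⟩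
    simp only [← Dn_agree hp hS hk hA hA' h, ← Cn_agree hp hS hk hA hA' h,
      ← Sd_agree hp hS hk hA hA' h, ← tip_agree hp hS hk hA hA' h] at h1 h2 h5 h6 h7 h8
    exact ⟨h1, h2, h3, h4, h5, h6, h7, h8⟩

theorem Bad_agree (c : Bool) (ρ R : ℕ) : Bad p k S A' j δ c ρ R = Bad p k S A j δ c ρ R := by
  classical
  ext x
  unfold Bad
  simp only [Finset.mem_filter, dk_agree hp hS hk hA hA' h, Cfl_agree hp hS hk hA hA' h,
    Cn_agree hp hS hk hA hA' h]

/-- The configuration off the unread squares. -/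
theorem cfg_agree {v : ℤ × ℤ} (hv : v ∉ dk p k S A j) :
    H192.cfg (wiredOpen p k A') v = H192.cfg (wiredOpen p k A) v := by
  classical
  rw [Bool.eq_iff_iff, H192.cfg_true, H192.cfg_true, H718.mem_wiredOpen, H718.mem_wiredOpen]
  by_cases hw : H192.ed v ∈ H718.wE p k
  · exact iff_of_true (Or.inr hw) (Or.inr hw)
  have key : H192.ed v ∈ A' ↔ H192.ed v ∈ A := by
    by_cases hr : v ∈ Rd p k S A j
    · have h1 := (run_agree_iff hA hA' j).1 h v hr
      rw [Bool.eq_iff_iff, H192.cfg_true, H192.cfg_true] at h1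
      exact h1
    · have hD : v ∉ Dq S p k := fun hD => hv (Finset.mem_sdiff.2 ⟨hD, hr⟩)
      have hE : H192.ed v ∉ edges S := fun hE => hD (H718.mem_Dq'.2 ⟨hE, hw⟩)
      exact iff_of_false (fun h => hE (hA' h)) (fun h => hE (hA h))
  rw [key]

theorem Wr_agree : Wr (dk p k S A' j) (H192.cfg (wiredOpen p k A')) =
    Wr (dk p k S A j) (H192.cfg (wiredOpen p k A)) := by
  rw [dk_agree hp hS hk hA hA' h]
  ext s
  unfold Wr
  simp only [Set.mem_ofPred_eq]
  refine and_congr_right fun _ => exists_congr fun v => and_congr_right fun hv => ?_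
  rw [cfg_agree hp hS hk hA hA' h hv]

end

/-- **The upper event depends on the history only.** -/
theorem hist_up {δ : ℕ → ℝ} {N k : ℕ → ℕ} {p : ∀ n, ZMod (N n) → ℤ × ℤ}
    {S : ℕ → Finset (ℤ × ℤ)} {ψn : ℕ → ℂ → ℂ} {m : ℕ} (hp : IsPolygon (p m))
    (hS : Encloses (p m) (S m)) (hk : k m < N m) {κ : Finset (Sym2 (ℤ × ℤ)) → ℕ}
    (hκ : (exn δ N k p S ψn m).StopIx κ) (c : Bool) (ρ R : ℕ) (Bx : Finset (ℤ × ℤ)) :
    CT.Hist (exn δ N k p S ψn m) κ fun A => NSup (dk (p m) (k m) (S m) A (κ A))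
      (Bad (p m) (k m) (S m) A (κ A) (δ m) c ρ R) Bx := by
  intro A hA A' hA' h
  have hA1 : A ⊆ edges (S m) := (mem_Qc (p := p m) (k := k m) (δ := δ m)).1 hA
  have hA1' : A' ⊆ edges (S m) := (mem_Qc (p := p m) (k := k m) (δ := δ m)).1 hA'
  have h' : ∀ i ≤ κ A, run (p m) (k m) A' (i - 1) = run (p m) (k m) A (i - 1) := h
  have hκ' : κ A' = κ A := hκ A hA A' hA' h
  simp only [hκ', dk_agree hp hS hk hA1 hA1' h', Bad_agree hp hS hk hA1 hA1' h']

/-- **The lower event depends on the history only.** -/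
theorem hist_lo {δ : ℕ → ℝ} {N k : ℕ → ℕ} {p : ∀ n, ZMod (N n) → ℤ × ℤ}
    {S : ℕ → Finset (ℤ × ℤ)} {ψn : ℕ → ℂ → ℂ} {m : ℕ} (hp : IsPolygon (p m))
    (hS : Encloses (p m) (S m)) (hk : k m < N m) {κ : Finset (Sym2 (ℤ × ℤ)) → ℕ}
    (hκ : (exn δ N k p S ψn m).StopIx κ) (c : Bool) (ρ R : ℕ) (F : Set (ℤ × ℤ)) :
    CT.Hist (exn δ N k p S ψn m) κ fun A => NSlo (dk (p m) (k m) (S m) A (κ A))
      (H192.cfg (wiredOpen (p m) (k m) A))
      (Bad (p m) (k m) (S m) A (κ A) (δ m) c ρ R) F := by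
  intro A hA A' hA' h
  have hA1 : A ⊆ edges (S m) := (mem_Qc (p := p m) (k := k m) (δ := δ m)).1 hA
  have hA1' : A' ⊆ edges (S m) := (mem_Qc (p := p m) (k := k m) (δ := δ m)).1 hA'
  have h' : ∀ i ≤ κ A, run (p m) (k m) A' (i - 1) = run (p m) (k m) A (i - 1) := h
  have hκ' : κ A' = κ A := hκ A hA A' hA' h
  have hW := Wr_agree hp hS hk hA1 hA1' h'
  have e1 := dk_agree hp hS hk hA1 hA1' h'
  have e2 := Bad_agree (δ := δ m) hp hS hk hA1 hA1' h' c ρ R
  show NSlo (dk (p m) (k m) (S m) A' (κ A')) _ (Bad (p m) (k m) (S m) A' (κ A') (δ m) c ρ R) F =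
    NSlo (dk (p m) (k m) (S m) A (κ A)) _ (Bad (p m) (k m) (S m) A (κ A) (δ m) c ρ R) F
  rw [hκ', e2]
  unfold NSlo
  rw [hW, e1]

end Vale.Agent.P167.H174.BD
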