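import Vale.Agent.P167.H174.BD.RepRun
import Vale.Agent.P167.H174.CT.Lc
import Vale.Agent.P167.H531.Q.Br7

/-!
# P167, general `q`, [BAD] (B1): the form for sequences

`P_b1` from 531's `b1` (for one history) and the uniform local connectivity `lc_Om`.
-/

set_option autoImplicit false
set_option linter.unusedVariables false
set_option linter.unusedSectionVars false

namespace Vale.Agent.P167.H174.BD

open Filter Topology Set
open Relation (ReflTransGen)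
open Vale.Agent.P145.FB (PStep)
open Vale.Agent.P167.FKA (Cor)
open Vale.Agent.P167.E6 Vale.Agent.P167.E2
open Vale.Agent.P167.H166
open Vale.Agent.P167.H718 (Dq)
open Vale.Agent.P167.H634 (SqD)
open Vale.Agent.P167.H72.SD (dk Wr)
open Vale.Agent.P167.H713.Q (Cn Cfl oR)
open Vale.Agent.P167.H446.G (rS rR)
open Vale.Agent.P167.H174.CT (NearC thk rep T32)
open Vale.Agent.P167.H531.Q (BC Tch)
open Vale.Agent.P167.H531.K (joined_of_cc)

/-- 531's `b1`: one history. -/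
def L_b1 : Prop := ∀ {n : ℕ} {p : ZMod n → ℤ × ℤ} {k : ℕ} {S : Finset (ℤ × ℤ)}
  {A : Finset (Sym2 (ℤ × ℤ))} {δ : ℝ}, IsPolygon p → Encloses p S → 0 < k → k + 1 < n →
  A ⊆ edges S → 0 < δ → ∀ {j : ℕ}, j - 1 ≤ len p k A → ∀ {c : Bool} {zc : ℤ × ℤ} {ρ Rc : ℕ}
    {u w : ℂ}, Cfl p k S A j δ c zc ρ Rc u w →
  ∀ {x q : ℤ × ℤ}, x ∈ dk p k S A j → (SqD δ x ∩ Cn p k S A j δ zc ρ u).Nonempty → Cor x q →
  (q.1 + q.2) % 2 = QC.par (!c) → ∀ {s : ℕ}, ρ + 16 ≤ s → JoinedIn (Om δ S ∩ oR δ zc s) u w →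
  ∀ {z : ℤ × ℤ} {r R : ℤ} {h H : ℕ} {col : Bool}, nm (zc - z) + s + 16 ≤ r → r ≤ R →
  nm (zc - z) + R + 16 ≤ Rc → 2 * (s + 16) ≤ h → 2 * h ≤ H →
  ¬ Tch z R (H192.me (cs p)) → hdv (H192.me (ce p k)) ∉ FK.Bq z R → NearC p k z R col →
  ∀ {ω : Cfg}, (∀ m ≤ len p k A, hdv (H192.me (run p k A m)) ∈ FK.Bq z R →
      ω (hdv (H192.me (run p k A m))) = H192.cfg (wiredOpen p k A) (hdv (H192.me (run p k A m)))) →
  (∀ v ∈ FK.Bq z R, v ∉ Dq S p k → ω v = col) →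
  ∀ {t : ℤ × ℤ}, ReflTransGen (PStep {v | v ∈ FK.Bq z R ∧ ω v = !c}) q t → BC z R t →
  ω ∈ T32 (Dq S p k) col z r R H

theorem cor_nm' {v s : ℤ × ℤ} (h1 : Cor v s) : nm (v - s) ≤ 1 := by
  obtain ⟨a1, a2⟩ := h1
  rw [nm_le]
  simp only [Prod.fst_sub, Prod.snd_sub]
  omega

/-- The start is off the box. -/
theorem far_start {n : ℕ} {p : ZMod n → ℤ × ℤ} (hp : IsPolygon p) {z : ℤ × ℤ} {R : ℤ}
    (h : R + 3 < nm (H192.ro (p 0) - z)) : ¬ Tch z R (H192.me (cs p)) := by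
  have h1 : p 0 = p (-1) + dir (E2.ro p (-1)) := by
    have := ro_spec hp (-1)
    rwa [neg_add_cancel] at this
  have h2 := H192.ro_dir (p (-1)) (E2.ro p (-1))
  rw [← h1] at h2
  have h3 := QC.sd_cor true (H192.me (cs p))
  have h4 := QC.Mid.sd_cor_tl true (H192.me (cs p))
  have h5 : QC.sd true (H192.me (cs p)) = H192.ro (p (-1)) := H192.ls_me (cs p)
  rw [h5] at h3 h4
  obtain ⟨a1, a2⟩ := h3
  obtain ⟨b1, b2⟩ := h4
  rintro (h6 | h6)
  · rw [mem_Bq] at h6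
    refine absurd h (not_lt.2 ?_)
    rw [nm_le]
    simp only [Prod.fst_sub, Prod.snd_sub]
    omega
  · rw [mem_Bq] at h6
    refine absurd h (not_lt.2 ?_)
    rw [nm_le]
    simp only [Prod.fst_sub, Prod.snd_sub]
    omega

/-- The target is off the box. -/
theorem far_end {n : ℕ} {p : ZMod n → ℤ × ℤ} {k : ℕ} {z : ℤ × ℤ} {R : ℤ}
    (h : R + 3 < nm (H192.ro (p k) - z)) : hdv (H192.me (ce p k)) ∉ FK.Bq z R := by
  intro h6
  have h3 := QC.sd_cor true (H192.me (ce p k))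
  have h5 : QC.sd true (H192.me (ce p k)) = H192.ro (p k) := H192.ls_me (ce p k)
  rw [h5] at h3
  obtain ⟨a1, a2⟩ := h3
  rw [mem_Bq] at h6
  refine absurd h (not_lt.2 ?_)
  rw [nm_le]
  simp only [Prod.fst_sub, Prod.snd_sub]
  omega

/-- Two points of a small region are close. -/
theorem dist_oR {δ ρ : ℝ} {z : ℤ × ℤ} {u w : ℂ} (hu : u ∈ oR δ z ρ) (hw : w ∈ oR δ z ρ) :
    dist u w ≤ 4 * (δ * ρ) := by
  obtain ⟨h1, h2⟩ := hu
  obtain ⟨h3, h4⟩ := hw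
  rw [abs_lt] at h1 h2 h3 h4
  rw [dist_eq_norm]
  refine (Complex.norm_le_abs_re_add_abs_im _).trans ?_
  have e1 : |(u - w).re| ≤ 2 * (δ * ρ) := by
    rw [Complex.sub_re, abs_le]
    constructor <;> linarith
  have e2 : |(u - w).im| ≤ 2 * (δ * ρ) := by
    rw [Complex.sub_im, abs_le]
    constructor <;> linarith
  linarith

/-- A ball around a point of a region. -/
theorem ball_oR {δ ρ s h : ℝ} {z : ℤ × ℤ} {u : ℂ} (hu : u ∈ oR δ z ρ) (hs : δ * ρ + 2 * h ≤ δ * s) :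
    Metric.ball u h ⊆ oR δ z s := by
  intro w hw
  obtain ⟨h1, h2⟩ := hu
  rw [Metric.mem_ball, dist_eq_norm] at hw
  have e1 := (Complex.abs_re_le_norm (w - u)).trans_lt hw
  have e2 := (Complex.abs_im_le_norm (w - u)).trans_lt hw
  rw [Complex.sub_re] at e1
  rw [Complex.sub_im] at e2
  rw [abs_lt] at h1 h2 e1 e2
  constructor <;> rw [abs_lt] <;> constructor <;> linarith [e1.1, e1.2, e2.1, e2.2]

/-- **(B1)** for sequences. -/
theorem b1_of (hb : L_b1) {Φ : (ℝ × ℝ) ≃ₜ (ℝ × ℝ)} {δ : ℕ → ℝ} {N k : ℕ → ℕ}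
    {p : ∀ n, ZMod (N n) → ℤ × ℤ} {S : ℕ → Finset (ℤ × ℤ)} (hA : Approx Φ δ N k p S) :
    P_b1 δ N k p S := by
  intro η hη
  obtain ⟨h₀, hh₀, hlc⟩ := CT.lc_Om hA (h₁ := η / 64) (by positivity)
  refine ⟨min (h₀ / 4000) (η / 10000), by positivity, fun s hs hss => ?_⟩
  have hs1 : s ≤ h₀ / 4000 := hss.trans (min_le_left _ _)
  have hs2 : s ≤ η / 10000 := hss.trans (min_le_right _ _)
  filter_upwards [hlc, CT.two_ev hA, hA.2.1.eventually (gt_mem_nhds (show (0 : ℝ) < min (h₀ / 4000) (η / 10000)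
    by positivity))] with n hlc hk2 hδs
  have hd1 : δ n ≤ h₀ / 4000 := hδs.le.trans (min_le_left _ _)
  have hd2 : δ n ≤ η / 10000 := hδs.le.trans (min_le_right _ _)
  obtain ⟨hδ, hk0, hkN, hp, hS⟩ := hA.1 n
  intro A hAE j hj c col zc z Rc r R h u w hC hN hr hrR hRc hst hen hh x hx hxm q hq hqp t ht hqt
  -- the small radius
  set ρ : ℕ := rS s (δ n) with hρ
  have b1 : δ n * (ρ : ℝ) ≤ 800 * s + 8 * δ n := by
    have h1 : (⌈100 * s / δ n⌉₊ : ℝ) < 100 * s / δ n + 1 := Nat.ceil_lt_add_one (by positivity)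
    have h2 : (ρ : ℝ) = 8 * (⌈100 * s / δ n⌉₊ : ℝ) := by
      rw [hρ]
      unfold rS
      push_cast
      ring
    have h3 : δ n * (100 * s / δ n) = 100 * s := by field_simp
    rw [h2]
    nlinarith
  -- the local radius
  obtain ⟨s', hs'⟩ : ∃ s' : ℕ, s' = ρ + 16 + ⌈2 * (η / 64) / δ n⌉₊ := ⟨_, rfl⟩
  have b2 : 2 * (η / 64) / δ n ≤ (⌈2 * (η / 64) / δ n⌉₊ : ℝ) := Nat.le_ceil _
  have b3 : (⌈2 * (η / 64) / δ n⌉₊ : ℝ) < 2 * (η / 64) / δ n + 1 :=
    Nat.ceil_lt_add_one (by positivity)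
  have b4 : (s' : ℝ) = ρ + 16 + (⌈2 * (η / 64) / δ n⌉₊ : ℝ) := by rw [hs']; push_cast; ring
  have b5 : 2 * (η / 64) / δ n = η / δ n / 32 := by field_simp; norm_num
  have b6 : δ n * (η / δ n) = η := by field_simp
  rw [b5] at b2 b3 b4
  have b7 : δ n * (⌈η / δ n / 32⌉₊ : ℝ) ≥ 2 * (η / 64) := by
    have := mul_le_mul_of_nonneg_left b2 hδ.le
    linarith [show δ n * (η / δ n / 32) = η / 32 by rw [mul_div_assoc', b6]]
  have hρ0 : (0 : ℝ) ≤ ρ := Nat.cast_nonneg _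
  have hloc : JoinedIn (Om (δ n) (S n) ∩ oR (δ n) zc s') u w := by
    have h1 := hlc u hC.u_mem.1 w hC.w_mem.1 ?_
    · refine h1.mono (inter_subset_inter_right _ (ball_oR hC.u_reg ?_))
      rw [b4]
      nlinarith
    · refine (dist_oR hC.u_reg hC.w_reg).trans_lt ?_
      have : 4 * (δ n * ((ρ : ℝ) / 2)) = 2 * (δ n * ρ) := by ring
      rw [this]
      linarith
  -- the size of the contact
  have b8 : (4 : ℝ) * (s' + 16) ≤ η / δ n := by
    rw [b4]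
    have h1 : δ n * (4 * ((ρ : ℝ) + 16 + (⌈η / δ n / 32⌉₊ : ℝ) + 16)) ≤ δ n * (η / δ n) := by
      have h2 : δ n * (⌈η / δ n / 32⌉₊ : ℝ) ≤ η / 32 + δ n := by
        have h3 := mul_le_mul_of_nonneg_left b3.le hδ.le
        have h4 : δ n * (η / δ n / 32 + 1) = η / 32 + δ n := by
          rw [mul_add, mul_div_assoc', b6, mul_one]
        linarith
      rw [b6]
      nlinarith
    exact le_of_mul_le_mul_left h1 hδ
  have hH : 2 * (2 * (s' + 16)) ≤ h := by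
    have h1 : ((2 * (2 * (s' + 16)) : ℕ) : ℝ) ≤ (h : ℝ) := by
      push_cast
      linarith
    exact_mod_cast h1
  have hz : nm (zc - z) + s' + 16 ≤ r := by
    have h1 : ((nm (zc - z) + s' + 16 : ℤ) : ℝ) ≤ (r : ℝ) := by
      push_cast
      rw [b4]
      have h2 : 0 ≤ η / δ n := by positivity
      linarith
    exact_mod_cast h1
  classical
  refine hb hp hS hk0 hk2 hAE hδ (by omega) hC hx hxm hq hqp (s := s') (by omega) hloc hz hrR
    (by omega) le_rfl hH (far_start hp (by omega)) (far_end (by omega)) hN ?_ ?_ hqt ht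
  · -- the configuration on the squares of the path
    intro m hm hv
    exact rep_run hp hS hk0 hkN hAE hN (far_start hp (by omega)) (far_end (by omega)) hm hv
  · intro v hv hvD
    exact H476.K.rep_thk hv hvD

end Vale.Agent.P167.H174.BD
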