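import Vale.Agent.P167.H174.BD.HistB
import Vale.Agent.P167.H174.BD.B1s
import Vale.Agent.P167.H437Q.Ret
import Vale.Agent.P167.H825.B4.Main
import Vale.Agent.P167.H825.B5.Targ
import Vale.Agent.P167.H825.B5.Inc
import Vale.Agent.P167.H446.G.Asm

/-!
# P167, general `q`, [BAD]: the assembly

`B_bad` from the blocks.
-/

set_option autoImplicit false
set_option linter.unusedVariables false
set_option linter.unusedSectionVars false

namespace Vale.Agent.P167.H174.BD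

open Filter Topology Set
open Relation (ReflTransGen)
open Vale.Agent.P145.FB (PStep)
open Vale.Agent.P167.FKA (Cor)
open Vale.Agent.P167.E6 Vale.Agent.P167.E2
open Vale.Agent.P167.H718 (Dq)
open Vale.Agent.P167.H634 (SqD)
open Vale.Agent.P167.H72.SD (dk om Wr NSup NSlo Ff)
open Vale.Agent.P167.H713.Q (Cn Cfl Dn oR)
open Vale.Agent.P167.H446.G
open Vale.Agent.P167.H174.CT (NearC thk rep T32 Far)
open Vale.Agent.P167.H531.Q (BC)
open Vale.Agent.P167.H411 (exn Set6)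
open Vale.Agent.P167.QT

/-- The frozen event: an arm of the colour `!c` from a frozen square to the target. -/
noncomputable def NSE {n : ℕ} (p : ZMod n → ℤ × ℤ) (k : ℕ) (S : Finset (ℤ × ℤ)) (δ r s : ℝ)
    (A : Finset (Sym2 (ℤ × ℤ))) (j : ℕ) (Bx : Finset (ℤ × ℤ)) (F : Set (ℤ × ℤ)) (c : Bool) :
    Set Cfg :=
  if c then NSup (dk p k S A j) (bad p k S δ r s A j true) Bx
  else NSlo (dk p k S A j) (om p k A) (bad p k S δ r s A j false) F

section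

variable {Φ : (ℝ × ℝ) ≃ₜ (ℝ × ℝ)} {ψ : ℂ → ℂ} {δ : ℕ → ℝ} {N k : ℕ → ℕ}
  {p : ∀ n, ZMod (N n) → ℤ × ℤ} {S : ℕ → Finset (ℤ × ℤ)} {ψn : ℕ → ℂ → ℂ}

/-- The lattice domains are uniformly bounded. -/
theorem exists_L (H : Set6 Φ ψ δ N k p S ψn) : ∃ L : ℝ, 0 < L ∧ ∀ᶠ n in atTop,
    ∀ w ∈ Om (δ n) (S n), ‖w‖ + 1 ≤ L := by
  obtain ⟨M, hM⟩ := H411.uni_bdd (SLE.uni_of_uniformizer Vale.Agent.P153.R2.R1.i_uinj H.unif)
  refine ⟨|M| + 2, by positivity, ?_⟩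
  filter_upwards [H.conv 1 one_pos, CT.two_ev H.appr] with n hn hk w hw
  have h1 := (H.isU n hk).img
  rw [← h1] at hw
  obtain ⟨z, hz, rfl⟩ := hw
  have hz' : 0 ≤ z.im := le_of_lt hz
  have h2 := hn z hz'
  have h3 := hM z hz'
  have h4 : ‖ψn n z‖ ≤ dist (ψn n z) (ψ z) + ‖ψ z‖ := by
    rw [dist_eq_norm]
    have := norm_add_le (ψn n z - ψ z) (ψ z)
    rwa [sub_add_cancel] at this
  have h5 := le_abs_self M
  linarith

/-- The marked points converge. -/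
theorem marks (hA : Approx Φ δ N k p S) {e : ℝ} (he : 0 < e) : ∀ᶠ n in atTop,
    dist ((δ n : ℂ) * E6.pt (p n 0)) (bc Φ 0) ≤ e ∧
    dist ((δ n : ℂ) * E6.pt (p n (k n))) (bc Φ Real.pi) ≤ e := by
  filter_upwards [hA.2.2 e he] with n ⟨σ, hσ, h0, hk, hN, hd⟩
  obtain ⟨-, hk0, hkN, -, -⟩ := hA.1 n
  constructor
  · have h1 := hd 0 (by omega) 0 ⟨h0.le, by rw [← h0]; exact hσ (Nat.zero_le _)⟩
    rw [Nat.cast_zero] at h1
    exact h1.le
  · have h1 := hd (k n) hkN Real.pi ⟨hk.le, by rw [← hk]; exact hσ (Nat.le_succ _)⟩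
    exact h1.le

open Classical in
/-- A conflict pair near `a`. -/
def CA (p : ∀ n, ZMod (N n) → ℤ × ℤ) (k : ℕ → ℕ) (S : ℕ → Finset (ℤ × ℤ)) (Φ : (ℝ × ℝ) ≃ₜ (ℝ × ℝ))
    (δ : ℕ → ℝ) (n : ℕ) (s r' ρF : ℝ) (A : Finset (Sym2 (ℤ × ℤ))) (j : ℕ) : Prop :=
  ∃ (z : ℤ × ℤ) (c : Bool) (u w : ℂ), dist ((δ n : ℂ) * CT.ps z) (bc Φ 0) ≤ ρF ∧
    Cfl (p n) (k n) (S n) A j (δ n) c z (rS s (δ n)) (rR r' (δ n)) u w

open Classical in
/-- **[BAD]**, one colour. -/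
theorem bad_c {μ : ℝ} (hμ : 1 ≤ 2 * Real.cos μ) (H : Set6 Φ ψ δ N k p S ψn)
    (hK : QE.Stair 3 Φ δ N k p S) (h1 : P_b1 δ N k p S) (h3 : P_b3 Φ δ N k p S) {T R : ℝ}
    (hT : 0 ≤ T) (hR : 0 < R) : ∃ ρ : ℝ, 0 < ρ ∧ ∀ C : Cst, C.T = T → C.R = R → C.Sm ρ →
    ∀ (c : Bool) (r η : ℝ), 0 < r → 0 < η → ∀ ε' : ℝ, 0 < ε' → ∃ s₀ : ℝ, 0 < s₀ ∧
      ∀ s : ℝ, 0 < s → s ≤ s₀ → ∀ᶠ n in atTop, ∀ κ : Hst → ℕ,
        QE.BefIx (exn δ N k p S ψn n) C.T C.R κ →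
        QE.ExW (exn δ N k p S ψn n).C (QE.wq ((2 * Real.cos μ) ^ 2) (N n) (p n) (k n) (S n))
          ({A | η < prNS μ C (p n) (k n) (S n) (δ n) r s A (κ A) c}.indicator 1) ≤ ε' := by
  obtain ⟨m, hm, hb4⟩ := H825.B4.b4 H hK hT hR.le
  refine ⟨m / 8, by positivity, ?_⟩
  rintro C rfl rfl hC c r η hr hη ε' hε'
  have hq1 : 1 ≤ (2 * Real.cos μ) ^ 2 := by nlinarith
  have hq4 : (2 * Real.cos μ) ^ 2 ≤ 4 := by nlinarith [Real.cos_le_one μ]
  have hsq : √((2 * Real.cos μ) ^ 2) = 2 * Real.cos μ := Real.sqrt_sq (by linarith)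
  obtain ⟨r', hr', hr'r, hr'm⟩ : ∃ r' : ℝ, 0 < r' ∧ r' ≤ r ∧ r' ≤ m / 8 :=
    ⟨min r (m / 8), by positivity, min_le_left _ _, min_le_right _ _⟩
  obtain ⟨r₁, hr₁, hr₁', h3⟩ := h3 r' hr'
  obtain ⟨r₂, hr₂, hret⟩ := H437Q.Ret.p_ret hq1 hq4 H.appr ψn r₁ hr₁ hr₁' (ε' / 2) (by positivity)
  obtain ⟨r₃, hr₃, s₁, hs₁, h3⟩ := h3 r₂ hr₂
  obtain ⟨ρF, hρF, hρF3, hρFm⟩ : ∃ ρF : ℝ, 0 < ρF ∧ ρF ≤ r₃ ∧ ρF ≤ m / 8 :=
    ⟨min r₃ (m / 8), by positivity, min_le_left _ _, min_le_right _ _⟩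
  obtain ⟨L, hL, hLn⟩ := exists_L H
  obtain ⟨K, hK8, hlaw⟩ := CT.bad_small2 hq1 hq4
  obtain ⟨R₁, hR₁, hlaw⟩ := hlaw Φ δ N k p S H.appr ρF L hρF hL
  obtain ⟨R₂, hR₂, hR₂1, hR₂r, hR₂F, hR₂o⟩ : ∃ R₂ : ℝ, 0 < R₂ ∧ R₂ ≤ R₁ ∧ 8 * R₂ ≤ r' ∧
      16 * R₂ ≤ ρF ∧ R₂ ≤ 1 := by
    refine ⟨min (min R₁ 1) (min (r' / 8) (ρF / 16)), by positivity,
      (min_le_left _ _).trans (min_le_left _ _), ?_, ?_,
      (min_le_left _ _).trans (min_le_right _ _)⟩
    · have := (min_le_right (min R₁ 1) (min (r' / 8) (ρF / 16))).trans (min_le_left _ _)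
      linarith
    · have := (min_le_right (min R₁ 1) (min (r' / 8) (ρF / 16))).trans (min_le_right _ _)
      linarith
  obtain ⟨ε, hε, hεη, hεε⟩ : ∃ ε : ℝ, 0 < ε ∧ ε ≤ η ∧ ε ≤ ε' / 2 :=
    ⟨min η (ε' / 2), by positivity, min_le_left _ _, min_le_right _ _⟩
  obtain ⟨ηc, hηc, hlaw⟩ := hlaw R₂ hR₂ hR₂1 ε hε
  have hK0 : 0 < K := by linarith
  obtain ⟨ηb, hηb, hηb1, hηb2⟩ : ∃ ηb : ℝ, 0 < ηb ∧ ηb ≤ ηc / 2 ∧ ηb ≤ R₂ / (4 * K) :=
    ⟨min (ηc / 2) (R₂ / (4 * K)), by positivity, min_le_left _ _, min_le_right _ _⟩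
  obtain ⟨s₂, hs₂, h1⟩ := h1 ηb hηb
  refine ⟨min (min s₁ s₂) (min (R₂ / (8 * K) / 2000) C.m),
    lt_min (lt_min hs₁ hs₂) (lt_min (by positivity) hC.m_pos), fun s hs hss => ?_⟩
  have t1 : s ≤ s₁ := (hss.trans (min_le_left _ _)).trans (min_le_left _ _)
  have t2 : s ≤ s₂ := (hss.trans (min_le_left _ _)).trans (min_le_right _ _)
  have t3 : 2000 * s ≤ R₂ / (8 * K) := by
    have := (hss.trans (min_le_right _ _)).trans (min_le_left _ _)
    linarith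
  have t4 : s ≤ C.m := (hss.trans (min_le_right _ _)).trans (min_le_right _ _)
  have hmp := hC.m_pos
  filter_upwards [hlaw, hret, h3 s hs t1, h1 s hs t2, hb4, hLn, marks H.appr (show 0 < ρF / 16 by
    positivity), CT.two_ev H.appr, H.appr.2.1.eventually (gt_mem_nhds (show (0 : ℝ) <
      min (min (ηc / 2) (R₂ / (8 * K) / 200)) (C.m / 8) by positivity))]
    with n hlaw hret h3 h1 hb4 hLn hmk hk2 hδn
  obtain ⟨Z, col, hZ, hcov, hlaw⟩ := hlaw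
  obtain ⟨hδ, hk0, hkN, hp, hS⟩ := H.appr.1 n
  have d1 : δ n ≤ ηc / 2 := (hδn.le.trans (min_le_left _ _)).trans (min_le_left _ _)
  have d2 : 200 * δ n ≤ R₂ / (8 * K) := by
    have := (hδn.le.trans (min_le_left _ _)).trans (min_le_right _ _)
    linarith
  have d3 : 8 * δ n ≤ C.m := by
    have := hδn.le.trans (min_le_right _ _)
    linarith
  intro κ hκ
  set Bx : Finset (ℤ × ℤ) := FK.Bq (vd (p n) (k n) C.Ld s (δ n)) (mb C.m (δ n)) with hBx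
  set F : Set (ℤ × ℤ) := Ff (H192.ro (p n (k n))) (mq C.Lc s (δ n) + 1)
    ((vd (p n) (k n) C.Ld s (δ n)).1 - mb C.m (δ n)) ((vd (p n) (k n) C.Ld s (δ n)).1 + mb C.m (δ n))
    ((vd (p n) (k n) C.Ld s (δ n)).2 - mb C.m (δ n)) ((vd (p n) (k n) C.Ld s (δ n)).2 + mb C.m (δ n))
    with hF
  set E : Finset (Sym2 (ℤ × ℤ)) → Set Cfg := fun A =>
    if CA p k S Φ δ n s r' ρF A (κ A) then ∅
    else NSE (p n) (k n) (S n) (δ n) r s A (κ A) Bx F c with hE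
  have hCe : ∀ {A : Finset (Sym2 (ℤ × ℤ))}, A ∈ (exn δ N k p S ψn n).C ↔ A ⊆ edges (S n) :=
    H411.mem_Qc (p := p n) (k := k n) (δ := δ n)
  have hKn : ∀ A : Finset (Sym2 (ℤ × ℤ)), (exn δ N k p S ψn n).K A = len (p n) (k n) A + 2 :=
    fun A => rfl
  -- the histories
  have hHist : CT.Hist (exn δ N k p S ψn n) κ E := by
    intro A hA A' hA' h
    have hA1 := hCe.1 hA
    have hA1' := hCe.1 hA'
    have h' : ∀ i ≤ κ A, run (p n) (k n) A' (i - 1) = run (p n) (k n) A (i - 1) := h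
    have hκ' : κ A' = κ A := hκ.1 A hA A' hA' h
    have hCA : CA p k S Φ δ n s r' ρF A' (κ A') ↔ CA p k S Φ δ n s r' ρF A (κ A) := by
      unfold CA
      rw [hκ']
      simp only [Cfl_agree hp hS hkN hA1 hA1' h']
    have hNS : NSE (p n) (k n) (S n) (δ n) r s A' (κ A') Bx F c =
        NSE (p n) (k n) (S n) (δ n) r s A (κ A) Bx F c := by
      unfold NSE
      cases c
      · exact hist_lo hp hS hkN hκ.1 false _ _ F A hA A' hA' h
      · exact hist_up hp hS hkN hκ.1 true _ _ Bx A hA A' hA' h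
    show (if CA p k S Φ δ n s r' ρF A' (κ A') then ∅ else _) =
      (if CA p k S Φ δ n s r' ρF A (κ A) then ∅ else _)
    rw [hNS]
    exact if_congr hCA rfl rfl
  have hmk0 : m / 8 * 2 = m / 4 := by ring
  -- the inclusion
  have hinc : ∀ A ⊆ edges (S n), H192.cfg (wiredOpen (p n) (k n) A) ∈ E A → ∃ z ∈ Z,
      rep (Dq (S n) (p n) (k n)) (thk (p n) (k n) (S n) z ⌊R₂ / δ n⌋ (col z))
        (H192.cfg (wiredOpen (p n) (k n) A)) ∈
          T32 (Dq (S n) (p n) (k n)) (col z) z (2 * ⌊R₂ / (K * δ n)⌋) ⌊R₂ / δ n⌋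
            ⌊ηc / δ n⌋₊ := by
    intro A hA hEA
    have hCA : ¬ CA p k S Φ δ n s r' ρF A (κ A) := by
      intro h
      simp only [hE, if_pos h] at hEA
      exact hEA
    simp only [hE, if_neg hCA] at hEA
    have hAC := hCe.2 hA
    obtain ⟨hj1, hj2⟩ := hκ.2 A hAC
    have hj : κ A ≤ len (p n) (k n) A + 1 := by
      rw [hKn] at hj1
      omega
    obtain ⟨-, hb, -⟩ := hb4 A hAC (κ A) hj1 hj2
    have h5' : ∀ w ∈ Om (δ n) (S n), ‖w‖ + R₂ ≤ L := fun w hw => by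
      have := hLn w hw
      linarith
    refine H825.B5.inc (Φ := Φ) (m := m) (r := r) (r' := r') (s := s) (K := K) (R₂ := R₂)
      (ρF := ρF) (ηb := ηb) (ηc := ηc) (L := L) (r₃ := ρF) (Bx := Bx) (F := F) (c := c) hp hS hk0
      hk2 hA hj hK8 hδ hs t3 d2 hηb2 (by linarith) hηb hR₂r hR₂F hρFm hr'm hr'r le_rfl h1 hZ hcov
      ?_ ?_ h5' hmk.1 hmk.2 ?_ ?_
    · intro z hz
      refine hb z (rS s (δ n)) (rR r' (δ n)) ?_ hz
      -- the radii
      have e1 : (⌈100 * s / δ n⌉₊ : ℝ) < 100 * s / δ n + 1 := Nat.ceil_lt_add_one (by positivity)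
      have e2 : r' / δ n < (⌊r' / δ n⌋₊ : ℝ) + 1 := Nat.lt_floor_add_one _
      have e3 : ((rS s (δ n) : ℕ) : ℝ) = 8 * (⌈100 * s / δ n⌉₊ : ℝ) := by
        unfold rS; push_cast; ring
      have e4 : ((rR r' (δ n) : ℕ) : ℝ) = (⌊r' / δ n⌋₊ : ℝ) := rfl
      rw [e3, e4]
      have e5 : 400 * s / δ n + 10 ≤ r' / δ n := by
        have h8 : R₂ / (8 * K) ≤ R₂ := by
          rw [div_le_iff₀ (by positivity)]
          nlinarith
        rw [div_add' _ _ _ hδ.ne', div_le_div_iff_of_pos_right hδ]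
        linarith
      have e6 : 400 * s / δ n = 4 * (100 * s / δ n) := by ring
      linarith
    · intro z c u w hz hcf
      exact hCA ⟨z, c, u, w, hz, hcf⟩
    · intro t ht
      have h8 := H825.B5.targ_near (p := p n) (k := k n) hC hδ hs t4 d3 (b := c) (t := t) ht
      linarith
    · unfold NSE at hEA
      cases c
      · exact hEA
      · exact hEA
  -- the law
  have h5 := hlaw ψn κ hκ.1 E hHist hinc
  have hfin : ((exn δ N k p S ψn n).C).Finite := by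
    have : (exn δ N k p S ψn n).C = (((edges (S n)).powerset : Finset _) : Set _) := rfl
    rw [this]
    exact Finset.finite_toSet _
  have hw : ∀ A ∈ (exn δ N k p S ψn n).C,
      0 < QE.wq ((2 * Real.cos μ) ^ 2) (N n) (p n) (k n) (S n) A := fun A _ =>
    QG.weight_pos (by positivity) _ _ _ _
  refine (QE.exW_mono hfin hw (g := fun A => ({A | ε < FK.Pr (√((2 * Real.cos μ) ^ 2))
      (Dq (S n) (p n) (k n) \ H161.Rd (p n) (k n) (S n) A (κ A))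
      (H192.cfg (wiredOpen (p n) (k n) A)) (E A)}.indicator (1 : Hst → ℝ) A) +
      ({A | Ret Φ δ N k p n r₁ r₂ A}.indicator (1 : Hst → ℝ) A)) ?_).trans ?_
  · intro A hA
    by_cases hA2 : A ∈ {A | η < prNS μ C (p n) (k n) (S n) (δ n) r s A (κ A) c}
    swap
    · rw [indicator_of_notMem hA2]
      exact add_nonneg (indicator_nonneg (fun _ _ => zero_le_one) _)
        (indicator_nonneg (fun _ _ => zero_le_one) _)
    rw [indicator_of_mem hA2]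
    have hj1 := (hκ.2 A hA).1
    by_cases hCA : CA p k S Φ δ n s r' ρF A (κ A)
    · have hr2 : Ret Φ δ N k p n r₁ r₂ A := by
        by_contra hno
        obtain ⟨z, c', u, w, g1, g2⟩ := hCA
        exact h3 A (hCe.1 hA) (κ A) (by rw [hKn] at hj1; omega) hno z (g1.trans hρF3) c' u w g2
      rw [indicator_of_mem (s := {A | Ret Φ δ N k p n r₁ r₂ A}) hr2]
      have := indicator_nonneg (s := {A | ε < FK.Pr (√((2 * Real.cos μ) ^ 2))
        (Dq (S n) (p n) (k n) \ H161.Rd (p n) (k n) (S n) A (κ A))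
        (H192.cfg (wiredOpen (p n) (k n) A)) (E A)}) (f := (1 : Hst → ℝ))
        (fun _ _ => zero_le_one) A
      simp only [Pi.one_apply] at this ⊢
      linarith
    · have hmem : A ∈ {A | ε < FK.Pr (√((2 * Real.cos μ) ^ 2))
          (Dq (S n) (p n) (k n) \ H161.Rd (p n) (k n) (S n) A (κ A))
          (H192.cfg (wiredOpen (p n) (k n) A)) (E A)} := by
        show ε < _
        rw [hsq]
        refine hεη.trans_lt ?_
        have hA3 : η < prNS μ C (p n) (k n) (S n) (δ n) r s A (κ A) c := hA2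
        have e1 : E A = NSE (p n) (k n) (S n) (δ n) r s A (κ A) Bx F c := by
          simp only [hE, if_neg hCA]
        rw [e1]
        unfold prNS at hA3
        unfold NSE
        cases c
        · exact hA3
        · exact hA3
      rw [indicator_of_mem hmem]
      have := indicator_nonneg (s := {A | Ret Φ δ N k p n r₁ r₂ A}) (f := (1 : Hst → ℝ))
        (fun _ _ => zero_le_one) A
      simp only [Pi.one_apply] at this ⊢
      linarith
  · rw [QE.exW_add hfin]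
    have h6 : QE.ExW (exn δ N k p S ψn n).C
        (QE.wq ((2 * Real.cos μ) ^ 2) (N n) (p n) (k n) (S n)) (fun A =>
          {A | ε < FK.Pr (√((2 * Real.cos μ) ^ 2))
            (Dq (S n) (p n) (k n) \ H161.Rd (p n) (k n) (S n) A (κ A))
            (H192.cfg (wiredOpen (p n) (k n) A)) (E A)}.indicator (1 : Hst → ℝ) A) ≤ ε' / 2 :=
      (le_of_eq (by rfl)).trans (h5.trans hεε)
    have h7 : QE.ExW (exn δ N k p S ψn n).C
        (QE.wq ((2 * Real.cos μ) ^ 2) (N n) (p n) (k n) (S n)) (fun A =>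
          {A | Ret Φ δ N k p n r₁ r₂ A}.indicator (1 : Hst → ℝ) A) ≤ ε' / 2 :=
      (le_of_eq (by rfl)).trans hret
    linarith

end

end Vale.Agent.P167.H174.BD
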