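import Vale.Agent.P167.H174.BD.Asm

/-!
# P167, general `q`, [BAD]: the assembly, both colours
-/

set_option autoImplicit false
set_option linter.unusedVariables false
set_option linter.unusedSectionVars false

namespace Vale.Agent.P167.H174.BD

open Filter Topology Set
open Vale.Agent.P167.E6 Vale.Agent.P167.E2
open Vale.Agent.P167.H446.G
open Vale.Agent.P167.H411 (exn Set6)
open Vale.Agent.P167.QT

open Classical in
/-- **[BAD]** from the blocks (B1), (B3). -/
theorem b_bad_of {μ : ℝ} (hμ : 1 ≤ 2 * Real.cos μ) (hb1 : L_b1)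
    (hb3 : ∀ (Φ : (ℝ × ℝ) ≃ₜ (ℝ × ℝ)) (δ : ℕ → ℝ) (N k : ℕ → ℕ)
      (p : ∀ n, ZMod (N n) → ℤ × ℤ) (S : ℕ → Finset (ℤ × ℤ)), Approx Φ δ N k p S →
      P_b3 Φ δ N k p S) : B_bad μ := by
  intro Φ ψ δ N k p S ψn H hK T R hT hR
  obtain ⟨ρ, hρ, hb⟩ := bad_c hμ H hK (b1_of hb1 H.appr) (hb3 Φ δ N k p S H.appr) hT hR
  refine ⟨ρ, hρ, fun C hC1 hC2 hC => ?_⟩
  intro r η hr hη ε' hε'
  obtain ⟨s₁, hs₁, h1⟩ := hb C hC1 hC2 hC true r η hr hη (ε' / 2) (by positivity)
  obtain ⟨s₂, hs₂, h2⟩ := hb C hC1 hC2 hC false r η hr hη (ε' / 2) (by positivity)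
  refine ⟨min s₁ s₂, lt_min hs₁ hs₂, fun s hs hss => ?_⟩
  filter_upwards [h1 s hs (hss.trans (min_le_left _ _)), h2 s hs (hss.trans (min_le_right _ _))]
    with n h1 h2 κ hκ
  have h1 := h1 κ hκ
  have h2 := h2 κ hκ
  have hfin : ((exn δ N k p S ψn n).C).Finite := by
    have : (exn δ N k p S ψn n).C = (((edges (S n)).powerset : Finset _) : Set _) := rfl
    rw [this]
    exact Finset.finite_toSet _
  have hw : ∀ A ∈ (exn δ N k p S ψn n).C,
      0 < QE.wq ((2 * Real.cos μ) ^ 2) (N n) (p n) (k n) (S n) A := fun A _ =>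
    QG.weight_pos (by positivity) _ _ _ _
  refine (QE.exW_mono hfin hw (g := fun A =>
    ({A | η < prNS μ C (p n) (k n) (S n) (δ n) r s A (κ A) true}.indicator (1 : Hst → ℝ) A) +
    ({A | η < prNS μ C (p n) (k n) (S n) (δ n) r s A (κ A) false}.indicator (1 : Hst → ℝ) A))
    ?_).trans ?_
  · intro A hA
    have g1 := indicator_nonneg (s := {A | η < prNS μ C (p n) (k n) (S n) (δ n) r s A (κ A) true})
      (f := (1 : Hst → ℝ)) (fun _ _ => zero_le_one) A
    have g2 := indicator_nonneg (s := {A | η < prNS μ C (p n) (k n) (S n) (δ n) r s A (κ A) false})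
      (f := (1 : Hst → ℝ)) (fun _ _ => zero_le_one) A
    by_cases hA2 : A ∈ {A | ¬ ∀ c, prNS μ C (p n) (k n) (S n) (δ n) r s A (κ A) c ≤ η}
    swap
    · rw [indicator_of_notMem hA2]
      exact add_nonneg g1 g2
    rw [indicator_of_mem hA2]
    have h3 : ¬ ∀ c, prNS μ C (p n) (k n) (S n) (δ n) r s A (κ A) c ≤ η := hA2
    push Not at h3
    obtain ⟨c, hc⟩ := h3
    cases c
    · rw [indicator_of_mem (s := {A | η < prNS μ C (p n) (k n) (S n) (δ n) r s A (κ A) false})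
        (show A ∈ {A | η < prNS μ C (p n) (k n) (S n) (δ n) r s A (κ A) false} from hc)]
      simp only [Pi.one_apply] at g1 ⊢
      linarith
    · rw [indicator_of_mem (s := {A | η < prNS μ C (p n) (k n) (S n) (δ n) r s A (κ A) true})
        (show A ∈ {A | η < prNS μ C (p n) (k n) (S n) (δ n) r s A (κ A) true} from hc)]
      simp only [Pi.one_apply] at g2 ⊢
      linarith
  · rw [QE.exW_add hfin]
    have h6 : QE.ExW (exn δ N k p S ψn n).C
        (QE.wq ((2 * Real.cos μ) ^ 2) (N n) (p n) (k n) (S n)) (fun A =>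
          {A | η < prNS μ C (p n) (k n) (S n) (δ n) r s A (κ A) true}.indicator (1 : Hst → ℝ) A)
        ≤ ε' / 2 := h1
    have h7 : QE.ExW (exn δ N k p S ψn n).C
        (QE.wq ((2 * Real.cos μ) ^ 2) (N n) (p n) (k n) (S n)) (fun A =>
          {A | η < prNS μ C (p n) (k n) (S n) (δ n) r s A (κ A) false}.indicator (1 : Hst → ℝ) A)
        ≤ ε' / 2 := h2
    linarith

end Vale.Agent.P167.H174.BD
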