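import Vale.Agent.P167.H174.BD.Wk
import Vale.Agent.P167.H174.CT.Bad3
import Vale.Agent.P167.H476.Q.Out2

/-!
# P167, general `q`, [BAD] (B1): the end

From the conclusion of `bad_nodes3` to the event `T32`.
-/

set_option autoImplicit false
set_option linter.unusedVariables false
set_option linter.unusedSectionVars false

open Set Metric Relation

namespace Vale.Agent.P167.H174.BD

open Vale.Agent.P145.FB (PStep)
open Vale.Agent.P167.E6 Vale.Agent.P167.E2 Vale.Agent.P167.Fjord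
open Vale.Agent.P167.H166
open Vale.Agent.P167.FKA (Cor)
open Vale.Agent.P167.H718 (Dq)
open Vale.Agent.P167.H531.Q (Tch Gm M3 Sm BC bq_mono')
open Vale.Agent.P167.H531.K
open Vale.Agent.P167.H174.CT (NearC T3 T32 near_box near_mono)
open Vale.Agent.P167.H476.Q (T2)

variable {n : ℕ} {p : ZMod n → ℤ × ℤ} {S : Finset (ℤ × ℤ)} {k : ℕ} {A : Finset (Sym2 (ℤ × ℤ))}
  {z : ℤ × ℤ} {R r : ℤ} {ω : Cfg} {c col : Bool}

/-- Three strands. -/
theorem t3_m3 {h H : ℕ} (hH : 2 * h ≤ H) (hm : M3 z R r h ω) : ω ∈ T3 z r R H := by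
  obtain ⟨e1, e2, em, N1, N2, Nm, w, i, j, h1, h2, h3, -, h5, h6, h7, h8, h9, h10, h11, h12, h13⟩ :=
    hm
  refine CT.m3_of h1 h2 h3 h5 h6 h7 h8 h9 h10 ?_
  set a := hdv ((nx ω)^[i] e1) with ha
  set b := hdv ((nx ω)^[j] e2) with hb
  simp only [nm, Prod.fst_sub, Prod.snd_sub, max_le_iff, abs_le] at h13
  exact near_mono (near_box h12 _ a h11 rfl) (by omega)

/-- Monotonicity in the size of the contact. -/
theorem t2_mono {D : Finset (ℤ × ℤ)} {h H : ℕ} (hH : h ≤ H) (hm : ω ∈ T2 D c z r R h) :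
    ω ∈ T2 D c z r R H := by
  obtain ⟨em, el, h1, h2, h3, U, h4, h5, i, h6, w, h7, h8, h9⟩ := hm
  exact ⟨em, el, h1, h2, h3, U, h4, h5, i, h6, w, h7, near_mono h8 hH, h9⟩

/-- **The end of (B1).** -/
theorem b1_end (hp : IsPolygon p) (hS : Encloses p S) (hk0 : 0 < k) (hk : k + 1 < n)
    {h H : ℕ} (hN : NearC p k z R col) (hout : ∀ v ∈ FK.Bq z R, v ∉ Dq S p k → ω v = col)
    {Q : Set (ℤ × ℤ)} (hQ : Sm z r h Q) (hrR : r ≤ R) (hH : 2 * h ≤ H) {U : Set ℂ}
    {T : Set Medial} (hUQ : ∀ d ∈ Nr U, hdv (H192.me d) ∈ Q)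
    (hTQ : ∀ d ∈ T, ∀ v, nm (v - hdv (H192.me d)) ≤ 1 → v ∈ Q)
    (hm : M3 z R r h ω ∨ ∃ M, Rn p k A z R ω M ∧ ∃ d1 ∈ Nr U, H192.me d1 ∈ gM p k A M ∧
      ∃ b', BN p k S T c b' ∧ Jn (nod S) z R ω (gM p k A M) (aL S) (ndm S (!c) d1) b') :
    ω ∈ T32 (Dq S p k) col z r R H := by
  rcases hm with hm | ⟨M, hRn, d1, g1, g2, b', ⟨dd, e1, i, e2, e3, e4, e5, rfl⟩, g3⟩
  · exact Or.inl (t3_m3 hH hm)
  · right
    -- the colour of the box is that of the boundary node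
    have hB : ∀ v ∈ Q, v ∈ FK.Bq z R := fun v hv => bq_mono' hrR (hQ.b v hv)
    have hcol : c = col := by
      have h1 := hTQ dd e1 (hdv (H192.me dd)) (by rw [sub_self]; simp [nm])
      have h2 := hB _ h1
      have h3 := QC.sd_cor true (H192.me dd)
      have h4 : QC.sd true (H192.me dd) = H192.ro dd.1 := H192.ls_me dd
      rw [h4, e3] at h3
      have h5 := hN i e2 (CT.cor_near h3 (CT.bq_nm h2))
      rw [Bool.eq_iff_iff]
      exact (h5.trans e5).symm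
    subst hcol
    have key := H476.K.gap2' (c := !c) (h := h) hp hS hk0 hk (by rw [Bool.not_not]; exact hN)
      (by rw [Bool.not_not]; exact hout) hRn.gm hrR hQ g2 (hUQ _ g1) e2 e3 e4
      (by rw [Bool.not_not]; exact e5) (AL := aL S) (by rw [Bool.not_not, nod_me]; exact g3)
      (hTQ dd e1)
    exact t2_mono hH key

end Vale.Agent.P167.H174.BD
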