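import Vale.Agent.P167.H174.BD.Fin0

/-!
# P167, general `q`, [BAD] (B3): from one history to sequences
-/

set_option autoImplicit false
set_option linter.unusedVariables false
set_option linter.unusedSectionVars false

namespace Vale.Agent.P167.H174.BD

open Filter Topology Set
open Vale.Agent.P167.E6 Vale.Agent.P167.E2 Vale.Agent.P167.Fjord
open Vale.Agent.P167.H713.Q (Cn Cfl)
open Vale.Agent.P167.H446.G (rS rR)
open Vale.Agent.P167.H531.K (R1 nbh)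
open Vale.Agent.P167.H174.CT (ps)

/-- **(B3)**, one history: the literal statement. -/
def L_b3n : Prop := ∀ {n : ℕ} {p : ZMod n → ℤ × ℤ} {k : ℕ} {S : Finset (ℤ × ℤ)}
  {A : Finset (Sym2 (ℤ × ℤ))} {δ : ℝ}, IsPolygon p → Encloses p S → 0 < k → k + 1 < n →
  A ⊆ edges S → 0 < δ → ∀ {j : ℕ}, j ≤ len p k A + 1 → ∀ {c : Bool} {z : ℤ × ℤ} {ρ R : ℕ}
    {u w : ℂ}, Cfl p k S A j δ c z ρ R u w → 16 ≤ ρ → ρ + 16 ≤ R →
  (∀ l ≤ j - 1, E6.pt (run p k A l).1 ∈ R1 z (ρ + 16) →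
    l < len p k A ∧ ∀ t ≤ l, nbh (run p k A t) ⊆ R1 z R) →
  (c = true → ∀ i, k ≤ i → i < n → E6.pt (p i) ∈ R1 z (ρ + 16) → ∀ t, i ≤ t → t < n →
    Metric.closedBall (E6.pt (p t)) 4 ⊆ R1 z R) →
  (c = false → ∀ i < k, E6.pt (p i) ∈ R1 z (ρ + 16) → ∀ t ≤ i,
    Metric.closedBall (E6.pt (p t)) 4 ⊆ R1 z R) → False

/-- The boundary path of the polygon near `a`. -/
theorem arc_near {Φ : (ℝ × ℝ) ≃ₜ (ℝ × ℝ)} {δ : ℕ → ℝ} {N k : ℕ → ℕ}
    {p : ∀ n, ZMod (N n) → ℤ × ℤ} {S : ℕ → Finset (ℤ × ℤ)} (hA : Approx Φ δ N k p S) {r : ℝ}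
    (hr : 0 < r) : ∃ σ : ℝ, 0 < σ ∧ ∀ᶠ n in atTop,
    (∀ i : ℕ, k n ≤ i → i < N n → dist ((δ n : ℂ) * E6.pt (p n i)) (bc Φ 0) < σ →
      ∀ t : ℕ, i ≤ t → t < N n → dist ((δ n : ℂ) * E6.pt (p n t)) (bc Φ 0) < r) ∧
    (∀ i < k n, dist ((δ n : ℂ) * E6.pt (p n i)) (bc Φ 0) < σ →
      ∀ t ≤ i, dist ((δ n : ℂ) * E6.pt (p n t)) (bc Φ 0) < r) := by
  have hpi := Real.pi_pos
  have hper : bc Φ (2 * Real.pi) = bc Φ 0 := by
    unfold bc Vale.Agent.P153.R2.Final.circ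
    rw [Real.cos_two_pi, Real.sin_two_pi, Real.cos_zero, Real.sin_zero]
  have hc0 := (continuous_bc Φ).continuousAt (x := 0)
  have hc1 := (continuous_bc Φ).continuousAt (x := 2 * Real.pi)
  obtain ⟨τ₀, hτ₀, h0⟩ := Metric.continuousAt_iff.1 hc0 (r / 2) (by positivity)
  obtain ⟨τ₁, hτ₁, h1⟩ := Metric.continuousAt_iff.1 hc1 (r / 2) (by positivity)
  rw [hper] at h1
  obtain ⟨τ, hτ, t0, t1, t2⟩ : ∃ τ : ℝ, 0 < τ ∧ τ ≤ τ₀ / 2 ∧ τ ≤ τ₁ / 2 ∧ τ ≤ Real.pi / 2 :=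
    ⟨min (τ₀ / 2) (min (τ₁ / 2) (Real.pi / 2)), by positivity, min_le_left _ _,
      (min_le_right _ _).trans (min_le_left _ _), (min_le_right _ _).trans (min_le_right _ _)⟩
  obtain ⟨m, hm, hK⟩ := (isCompact_Icc (a := τ) (b := 2 * Real.pi - τ)).exists_forall_le'
    (f := fun t => dist (bc Φ t) (bc Φ 0))
    ((continuous_bc Φ).dist continuous_const).continuousOn (a := 0) (fun t ht =>
      dist_pos.2 (H469.bc_ne0 (by linarith [ht.1]) (by linarith [ht.2])))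
  refine ⟨m / 2, by positivity, ?_⟩
  filter_upwards [hA.2.2 (min (m / 2) (r / 2)) (by positivity)] with n ⟨σ, hσ, s0, sk, sN, hd⟩
  obtain ⟨-, hk0, hkN, -, -⟩ := hA.1 n
  have hd' : ∀ i < N n, dist ((δ n : ℂ) * E6.pt (p n i)) (bc Φ (σ i)) < min (m / 2) (r / 2) :=
    fun i hi => hd i hi (σ i) ⟨le_rfl, hσ (Nat.le_succ _)⟩
  have key : ∀ i < N n, dist ((δ n : ℂ) * E6.pt (p n i)) (bc Φ 0) < m / 2 →
      σ i < τ ∨ 2 * Real.pi - τ < σ i := by
    intro i hi h2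
    by_contra hcon
    push Not at hcon
    have h3 := hK (σ i) ⟨hcon.1, hcon.2⟩
    have h4 := (hd' i hi).trans_le (min_le_left _ _)
    have h5 := dist_triangle_left (bc Φ (σ i)) (bc Φ 0) ((δ n : ℂ) * E6.pt (p n i))
    linarith
  constructor
  · intro i hki hi h2 t hit ht
    have h3 : Real.pi ≤ σ i := by rw [← sk]; exact hσ hki
    have h4 : 2 * Real.pi - τ < σ i := (key i hi h2).resolve_left (by linarith)
    have h5 : σ t ≤ 2 * Real.pi := by rw [← sN]; exact hσ ht.le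
    have h6 : σ i ≤ σ t := hσ hit
    have h7 := h1 (x := σ t) (by rw [Real.dist_eq, abs_lt]; constructor <;> linarith)
    have h8 := (hd' t ht).trans_le (min_le_right _ _)
    linarith [dist_triangle ((δ n : ℂ) * E6.pt (p n t)) (bc Φ (σ t)) (bc Φ 0)]
  · intro i hi h2 t hti
    have h3 : σ i ≤ Real.pi := by rw [← sk]; exact hσ hi.le
    have h4 : σ i < τ := (key i (by omega) h2).resolve_right (by linarith)
    have h5 : 0 ≤ σ t := by rw [← s0]; exact hσ (Nat.zero_le _)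
    have h6 : σ t ≤ σ i := hσ hti
    have h7 := h0 (x := σ t) (by rw [Real.dist_eq, abs_lt]; constructor <;> linarith)
    have h8 := (hd' t (by omega)).trans_le (min_le_right _ _)
    linarith [dist_triangle ((δ n : ℂ) * E6.pt (p n t)) (bc Φ (σ t)) (bc Φ 0)]

theorem norm_R1 {z : ℤ × ℤ} {s : ℝ} {w : ℂ} (h : w ∈ R1 z s) : ‖w - ps z‖ ≤ 2 * s := by
  obtain ⟨h1, h2⟩ := h
  rw [abs_lt] at h1 h2
  refine (Complex.norm_le_abs_re_add_abs_im _).trans ?_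
  have e1 : |(w - ps z).re| ≤ s := by
    rw [Complex.sub_re, abs_le]
    simp only [ps]
    constructor <;> linarith
  have e2 : |(w - ps z).im| ≤ s := by
    rw [Complex.sub_im, abs_le]
    simp only [ps]
    constructor <;> linarith
  linarith

theorem R1_of_norm {z : ℤ × ℤ} {s : ℝ} {w : ℂ} (h : 2 * ‖w - ps z‖ < s) : w ∈ R1 z s := by
  have h1 := Complex.abs_re_le_norm (w - ps z)
  have h2 := Complex.abs_im_le_norm (w - ps z)
  rw [Complex.sub_re, abs_le] at h1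
  rw [Complex.sub_im, abs_le] at h2
  simp only [ps] at h1 h2
  constructor <;> rw [abs_lt] <;> constructor <;> simp only [ps] at h <;>
    linarith [h1.1, h1.2, h2.1, h2.2]

theorem dist_sc {δ : ℝ} (hδ : 0 < δ) (u w : ℂ) : dist ((δ : ℂ) * u) ((δ : ℂ) * w) = δ * ‖u - w‖ := by
  rw [dist_eq_norm, ← mul_sub, norm_mul, Complex.norm_real, Real.norm_eq_abs, abs_of_pos hδ]

/-- A point near the centre is in the region. -/
theorem R1_rR {δ r : ℝ} (hδ : 0 < δ) {z : ℤ × ℤ} {w a : ℂ} {X Y : ℝ}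
    (h1 : dist ((δ : ℂ) * w) a ≤ X) (h2 : dist ((δ : ℂ) * ps z) a ≤ Y)
    (h3 : 2 * (X + Y) + δ < r) : w ∈ R1 z (rR r δ) := by
  apply R1_of_norm
  have h4 : δ * ‖w - ps z‖ ≤ X + Y := by
    rw [← dist_sc hδ]
    exact (dist_triangle_right _ _ a).trans (add_le_add h1 h2)
  have h5 : r / δ < (rR r δ : ℝ) + 1 := Nat.lt_floor_add_one _
  rw [div_lt_iff₀ hδ] at h5
  have h6 : δ * (2 * ‖w - ps z‖) < δ * (rR r δ : ℝ) := by linarith
  exact lt_of_mul_lt_mul_left h6 hδ.le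

theorem mid_pt {δ : ℝ} (hδ : 0 < δ) (d : Medial) :
    dist (mid δ d) ((δ : ℂ) * E6.pt d.1) ≤ δ := by
  have h1 : mid δ d = (δ : ℂ) * ((E6.pt d.1 + E6.pt (d.1 + dir (d.2 + 1))) / 2) := by
    unfold mid
    ring
  rw [h1, dist_sc hδ]
  have h2 : (E6.pt d.1 + E6.pt (d.1 + dir (d.2 + 1))) / 2 - E6.pt d.1 =
      (E6.pt (d.1 + dir (d.2 + 1)) - E6.pt d.1) / 2 := by ring
  rw [h2]
  have h3 : ‖E6.pt (d.1 + dir (d.2 + 1)) - E6.pt d.1‖ ≤ 2 := by
    refine (Complex.norm_le_abs_re_add_abs_im _).trans ?_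
    have : ∀ x : Fin 4, |((dir x).1 : ℝ)| ≤ 1 ∧ |((dir x).2 : ℝ)| ≤ 1 := by
      intro x
      fin_cases x <;> norm_num [dir]
    obtain ⟨e1, e2⟩ := this (d.2 + 1)
    simp only [E6.pt, Complex.sub_re, Complex.sub_im, Prod.fst_add, Prod.snd_add]
    push_cast
    rw [add_sub_cancel_left, add_sub_cancel_left]
    linarith
  rw [norm_div]
  have : ‖(2 : ℂ)‖ = 2 := by norm_num
  rw [this]
  have h4 : ‖E6.pt (d.1 + dir (d.2 + 1)) - E6.pt d.1‖ / 2 ≤ 1 := by linarith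
  calc δ * (‖E6.pt (d.1 + dir (d.2 + 1)) - E6.pt d.1‖ / 2) ≤ δ * 1 :=
        mul_le_mul_of_nonneg_left h4 hδ.le
    _ = δ := mul_one _

/-- **(B3)** for sequences. -/
theorem b3_of (hb : L_b3n) (Φ : (ℝ × ℝ) ≃ₜ (ℝ × ℝ)) (δ : ℕ → ℝ) (N k : ℕ → ℕ)
    (p : ∀ n, ZMod (N n) → ℤ × ℤ) (S : ℕ → Finset (ℤ × ℤ)) (hA : Approx Φ δ N k p S) :
    P_b3 Φ δ N k p S := by
  intro r hr
  have hpi := Real.pi_pos
  obtain ⟨D, hDe⟩ : ∃ D : ℝ, D = dist (bc Φ 0) (bc Φ Real.pi) := ⟨_, rfl⟩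
  have hD : 0 < D := by
    rw [hDe]
    exact dist_pos.2 (H469.bc_ne0 hpi (by linarith)).symm
  obtain ⟨σ, hσ, harc⟩ := arc_near hA (r := r / 16) (by positivity)
  refine ⟨min (r / 16) D, by positivity, (min_le_right _ _).trans hDe.le, fun r₂ hr₂ => ?_⟩
  obtain ⟨e, he, e1, e2, e3, e4⟩ : ∃ e : ℝ, 0 < e ∧ e ≤ r / 64 ∧ e ≤ D / 16 ∧ e ≤ r₂ / 8 ∧
      e ≤ σ / 8 :=
    ⟨min (min (r / 64) (D / 16)) (min (r₂ / 8) (σ / 8)), by positivity,
      (min_le_left _ _).trans (min_le_left _ _), (min_le_left _ _).trans (min_le_right _ _),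
      (min_le_right _ _).trans (min_le_left _ _), (min_le_right _ _).trans (min_le_right _ _)⟩
  refine ⟨e, he, e / 8000, by positivity, fun s hs hss => ?_⟩
  filter_upwards [harc, CT.two_ev hA, marks hA he,
    hA.2.1.eventually (gt_mem_nhds (show (0 : ℝ) < min (e / 1000) s by positivity))] with
    n ⟨hT, hF⟩ hk2 ⟨_, hmb⟩ hδs
  have hd1 : δ n ≤ e / 1000 := hδs.le.trans (min_le_left _ _)
  have hd2 : δ n ≤ s := hδs.le.trans (min_le_right _ _)
  obtain ⟨hδ, hk0, hkN, hp, hS⟩ := hA.1 n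
  intro A hAE j hj hret z hz c u w hC
  -- the small radius
  obtain ⟨ρ, hρ⟩ : ∃ ρ : ℕ, ρ = rS s (δ n) := ⟨_, rfl⟩
  rw [← hρ] at hC
  have b1 : δ n * (ρ : ℝ) ≤ 800 * s + 8 * δ n := by
    have h1 : (⌈100 * s / δ n⌉₊ : ℝ) < 100 * s / δ n + 1 := Nat.ceil_lt_add_one (by positivity)
    have h2 : (ρ : ℝ) = 8 * (⌈100 * s / δ n⌉₊ : ℝ) := by
      rw [hρ]
      unfold rS
      push_cast
      ring
    have h3 : δ n * (100 * s / δ n) = 100 * s := by field_simp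
    rw [h2]
    nlinarith
  have b2 : 16 ≤ ρ := by
    have h1 : (100 : ℝ) ≤ 100 * s / δ n := by
      rw [le_div_iff₀ hδ]
      linarith
    have h2 : (100 : ℝ) ≤ (⌈100 * s / δ n⌉₊ : ℝ) := h1.trans (Nat.le_ceil _)
    have h3 : 100 ≤ ⌈100 * s / δ n⌉₊ := by exact_mod_cast h2
    rw [hρ]
    unfold rS
    omega
  have b3 : 2 * (δ n * ((ρ : ℝ) + 16)) ≤ e / 2 := by nlinarith
  have b4 : ρ + 16 ≤ rR r (δ n) := by
    refine Nat.le_floor ?_
    rw [le_div_iff₀ hδ]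
    push_cast
    nlinarith
  have near : ∀ w : ℂ, w ∈ R1 z ((ρ : ℝ) + 16) → dist ((δ n : ℂ) * w) (bc Φ 0) ≤ 3 / 2 * e := by
    intro w hw
    have h1 := norm_R1 hw
    have h2 : dist ((δ n : ℂ) * w) ((δ n : ℂ) * ps z) ≤ e / 2 := by
      rw [dist_sc hδ]
      have := mul_le_mul_of_nonneg_left h1 hδ.le
      linarith
    linarith [dist_triangle ((δ n : ℂ) * w) ((δ n : ℂ) * ps z) (bc Φ 0)]
  have ball4 : ∀ v : ℤ × ℤ, dist ((δ n : ℂ) * E6.pt v) (bc Φ 0) ≤ r / 16 + δ n →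
      Metric.closedBall (E6.pt v) 4 ⊆ R1 z (rR r (δ n)) := by
    intro v hv w hw
    rw [Metric.mem_closedBall, dist_eq_norm] at hw
    have h1 : dist ((δ n : ℂ) * w) ((δ n : ℂ) * E6.pt v) ≤ 4 * δ n := by
      rw [dist_sc hδ]
      have := mul_le_mul_of_nonneg_left hw hδ.le
      linarith
    refine R1_rR hδ (X := r / 16 + 5 * δ n) (Y := e) ?_ hz (by linarith)
    linarith [dist_triangle ((δ n : ℂ) * w) ((δ n : ℂ) * E6.pt v) (bc Φ 0)]
  refine hb hp hS hk0 hk2 hAE hδ hj hC b2 b4 ?_ ?_ ?_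
  · intro l hl hlz
    have h1 := near _ hlz
    have hlt : l < len (p n) (k n) A := by
      rcases Nat.lt_or_ge l (len (p n) (k n) A) with h2 | h2
      · exact h2
      exfalso
      have h3 : l = len (p n) (k n) A := by omega
      rw [h3, run_len hp hS hkN hAE] at h1
      have h4 : (ce (p n) (k n)).1 = p n (k n) := rfl
      rw [h4] at h1
      have h5 := dist_triangle_left (bc Φ 0) (bc Φ Real.pi) ((δ n : ℂ) * E6.pt (p n (k n)))
      rw [← hDe] at h5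
      linarith
    refine ⟨hlt, fun t ht => ?_⟩
    have h2 : dist (mid (δ n) (run (p n) (k n) A t)) (bc Φ 0) ≤ min (r / 16) D := by
      by_contra hcon
      push Not at hcon
      refine hret ⟨t, l, ht, hlt, hcon, ?_⟩
      have h3 := mid_pt hδ (run (p n) (k n) A l)
      linarith [dist_triangle (mid (δ n) (run (p n) (k n) A l))
        ((δ n : ℂ) * E6.pt (run (p n) (k n) A l).1) (bc Φ 0)]
    have h3 := h2.trans (min_le_left _ _)
    have h4 := mid_pt hδ (run (p n) (k n) A t)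
    rw [dist_comm] at h4
    refine Subset.trans ?_ (ball4 (run (p n) (k n) A t).1 ?_)
    · exact Metric.closedBall_subset_closedBall (by norm_num)
    · linarith [dist_triangle ((δ n : ℂ) * E6.pt (run (p n) (k n) A t).1)
        (mid (δ n) (run (p n) (k n) A t)) (bc Φ 0)]
  · intro _ i hki hi hiz t hit ht
    refine ball4 _ ?_
    have h1 := near _ hiz
    have h2 := hT i hki hi (by linarith) t hit ht
    linarith
  · intro _ i hi hiz t hti
    refine ball4 _ ?_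
    have h1 := near _ hiz
    have h2 := hF i hi (by linarith) t hti
    linarith

end Vale.Agent.P167.H174.BD
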