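import Vale.Agent.P167.H531.Q.Br4

/-!
# P167, general `q`, [BAD]: a conflict pair with an arm, all cases (nodes)

`first_edge`: along a chain of nodes, either the chain is off the path, or the first edge of the path.
`bad_nodes2`: a pair of nodes `a`, `b` of the slit domain which are not joined in a large region; both
see only walls of the colour `c` in a small region; a long chain joins them in the domain; an arm of the
other colour at `a`. Then there are three strands near each other, or a node on the side `!c` of the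
path is joined off the path to a node of the boundary of the colour `c` near `a` or `b`.
-/

set_option autoImplicit false
set_option linter.unusedVariables false
set_option linter.unusedSectionVars false

open Set Metric Relation

namespace Vale.Agent.P167.H174.BD

open Vale.Agent.P145.FB (PStep)
open Vale.Agent.P167.E6 Vale.Agent.P167.E2 Vale.Agent.P167.Fjord
open Vale.Agent.P167.H166
open Vale.Agent.P167.H531.Q (Tch Gm M3 Sm BC bq_mono')
open Vale.Agent.P167.H531.K

variable {n : ℕ} {p : ZMod n → ℤ × ℤ} {S : Finset (ℤ × ℤ)} {k : ℕ} {A : Finset (Sym2 (ℤ × ℤ))}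
  {z : ℤ × ℤ} {R r h : ℤ} {ω : Cfg} {M M0 : ℕ} {δ : ℝ}

theorem us_mono {T T' : Set Medial} (hT : T ⊆ T') {a b : Node} (h : ReflTransGen (Us S T) a b) :
    ReflTransGen (Us S T') a b := by
  induction h with
  | refl => exact ReflTransGen.refl
  | tail _ h2 ih =>
    obtain ⟨d, hd, h3⟩ := h2
    exact ih.tail ⟨d, hT hd, h3⟩

/-- Indexed form with a last step. -/
theorem chain_snoc {T : Set Medial} {a : Node} {d : Medial} {c : Bool}
    (h : ReflTransGen (Us S T) a (ndm S c d)) (hd : d ∈ T) (hv : d.1 ∈ verts S) :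
    ∃ (m : ℕ) (P : ℕ → Node) (D : ℕ → Medial), P 0 = a ∧ P (m + 1) = ndm S (!c) d ∧ D m = d ∧
      ∀ i < m + 1, D i ∈ T ∧
      (D i).1 ∈ verts S ∧ ∃ c, P i = ndm S c (D i) ∧ P (i + 1) = ndm S (!c) (D i) := by
  obtain ⟨m, P, D, h1, h2, h3⟩ := chain_index h
  refine ⟨m, fun i => if i ≤ m then P i else ndm S (!c) d, fun i => if i < m then D i else d, ?_,
    ?_, ?_, ?_⟩
  · simp only [Nat.zero_le, if_true]; exact h1
  · simp only [show ¬ (m + 1 ≤ m) by omega, if_false]
  · simp only [lt_irrefl, if_false]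
  · intro i hi
    by_cases him : i < m
    · obtain ⟨g1, g2, cc, g3, g4⟩ := h3 i him
      simp only [him, if_true, show i ≤ m by omega, show i + 1 ≤ m by omega]
      exact ⟨g1, g2, cc, g3, g4⟩
    · have him' : i = m := by omega
      subst him'
      simp only [lt_irrefl, if_false, le_refl, if_true, show ¬ (i + 1 ≤ i) by omega]
      exact ⟨hd, hv, c, h2, rfl⟩

section

variable (hp : IsPolygon p) (hS : Encloses p S) (hk : k + 1 < n) (hA : A ⊆ edges S)
include hp hS hk hA

/-- **The first edge of the path on a chain.** -/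
theorem first_edge (hRn : Rn p k A z R ω M) (hδ : 0 < δ) {T : Set Medial}
    (hT : ∀ d ∈ T, Tch z R (H192.me d)) {W : Set ℂ} (hW : ∀ d ∈ T, nbh d ⊆ W) {a b : Node}
    (hab : ReflTransGen (Us S T) a b) (ha : ps a ∈ sD1 p k S A δ M ∩ W) :
    (Jn (nod S) z R ω (gM p k A M) (aL S) a b ∧
      JoinedIn (sD1 p k S A δ M ∩ W) (ps a) (ps b)) ∨
    ∃ d ∈ T, d.1 ∈ verts S ∧ ∃ l ≤ M, d = run p k A l ∧ ∃ c0,
      ReflTransGen (Us S T) a (ndm S c0 d) ∧
      Jn (nod S) z R ω (gM p k A M) (aL S) a (ndm S c0 d) ∧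
      JoinedIn (sD1 p k S A δ M ∩ W) (ps a) (ps (ndm S c0 d)) := by
  classical
  induction hab with
  | refl => exact Or.inl ⟨ReflTransGen.refl, JoinedIn.refl ha⟩
  | @tail b e hab' hs ih =>
    rcases ih with ⟨i1, i2⟩ | ih
    swap
    · exact Or.inr ih
    obtain ⟨d, hd, hv, c, rfl, rfl⟩ := hs
    by_cases hG : ∃ l ≤ M, d = run p k A l
    · obtain ⟨l, hl, hdl⟩ := hG
      exact Or.inr ⟨d, hd, hv, l, hl, hdl, c, hab', i1, i2⟩
    · push Not at hG
      have hnG : H192.me d ∉ gM p k A M := by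
        rintro ⟨l, hl, he⟩
        exact hG l hl (H192.me_inj he)
      refine Or.inl ⟨i1.tail (Or.inl ⟨H192.me d, ?_, hnG, hT d hd, c, ?_, ?_⟩), i2.trans ?_⟩
      · show (H192.me' (H192.me d)).1 ∈ verts S
        rw [H192.me'_me]
        exact hv
      · rw [nod_me]
      · rw [nod_me]
      · have h5 := unit_join (δ := δ) hp hS hk hA hδ hRn.le hv hG (hW _ hd)
        cases c
        · exact h5.symm
        · exact h5

/-- **The deterministic inclusion (nodes), all cases.** -/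
theorem bad_nodes2 (hδ : 0 < δ) (hM0 : M0 ≤ len p k A)
    (hω : ∀ m ≤ len p k A, hdv (H192.me (run p k A m)) ∈ FK.Bq z R →
      ω (hdv (H192.me (run p k A m))) =
        H192.cfg (wiredOpen p k A) (hdv (H192.me (run p k A m))))
    (hst : ¬ Tch z R (H192.me (cs p))) (hen : hdv (H192.me (ce p k)) ∉ FK.Bq z R)
    {V : Set ℂ} (hV : ∀ d, Tch z R (H192.me d) → nbh d ⊆ V) {U U' W : Set ℂ} {Q : Set (ℤ × ℤ)}
    (hQ : Sm z r h Q) (hrR : r ≤ R) (hUQ : ∀ d ∈ Nr U, hdv (H192.me d) ∈ Q) (hUU : U' ⊆ U)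
    (hW : ∀ d ∈ Nr U', nbh d ⊆ W) {a b : Node} (ha : Good S a) (hb : Good S b)
    (hab : JoinedIn (O1 (S : Set (ℤ × ℤ)) ∩ U) (ps a) (ps b))
    (hn : ¬ JoinedIn (sD1 p k S A δ M0 ∩ V) (ps a) (ps b)) {c : Bool}
    (sa : ¬ Sees p k S A δ M0 W (ps a) (!c)) (sb : ¬ Sees p k S A δ M0 W (ps b) (!c))
    {ca cb : Bool} {da db : Medial} (ua : ps a ∈ U') (ub : ps b ∈ U')
    (ea : ReflTransGen (Us S (Nr U')) a (ndm S ca da))
    (eb : ReflTransGen (Us S (Nr U')) b (ndm S cb db))
    (sa' : ca = (!c) → ¬ JoinedIn (sD1 p k S A δ M0 ∩ W) (ps a) (ps (ndm S ca da)))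
    (sb' : cb = (!c) → ¬ JoinedIn (sD1 p k S A δ M0 ∩ W) (ps b) (ps (ndm S cb db)))
    (htip : ∀ c', ¬ JoinedIn (sD1 p k S A δ M0 ∩ V) (ps a) (sid c' (run p k A M0)))
    {t : ℤ × ℤ} (hq : (((nod S).cor a).1 + ((nod S).cor a).2) % 2 = QC.par (!c))
    (hqt : ReflTransGen (PStep {v | v ∈ FK.Bq z R ∧ ω v = !c}) ((nod S).cor a) t)
    (ht : BC z R t) :
    M3 z R r h ω ∨ ∃ M, Rn p k A z R ω M ∧ ∃ d1 ∈ Nr U, H192.me d1 ∈ gM p k A M ∧
      ∃ d2, (d2 = da ∧ ca = c ∨ d2 = db ∧ cb = c) ∧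
        Jn (nod S) z R ω (gM p k A M) (aL S) (ndm S (!c) d1) (ndm S c d2) := by
  classical
  have hk' : k < n := by omega
  have hB : ∀ v ∈ Q, v ∈ FK.Bq z R := fun v hv => bq_mono' hrR (hQ.b v hv)
  have hTc : ∀ d ∈ Nr U, Tch z R (H192.me d) := fun d hd => Or.inl (hB _ (hUQ d hd))
  have hNU : Nr U' ⊆ Nr U := fun d ⟨u, hu, hd⟩ => ⟨u, hUU hu, hd⟩
  have hUU' : ∀ {x y : Node}, Us S (Nr U') x y → Us S (Nr U) x y := by
    rintro x y ⟨d, hd, h2⟩
    exact ⟨d, hNU hd, h2⟩
  -- the exit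
  have hex : ∃ i, M0 ≤ i ∧ hdv (H192.me (run p k A i)) ∉ FK.Bq z R :=
    ⟨len p k A, hM0, by rw [run_len hp hS hk' hA]; exact hen⟩
  obtain ⟨hM1, hM2⟩ := Nat.find_spec hex
  have hM3 : ∀ i, M0 ≤ i → i < Nat.find hex → hdv (H192.me (run p k A i)) ∈ FK.Bq z R :=
    fun i h1 h2 => by_contra fun h3 => Nat.find_min hex h2 ⟨h1, h3⟩
  have hM4 : Nat.find hex ≤ len p k A :=
    Nat.find_min' hex ⟨hM0, by rw [run_len hp hS hk' hA]; exact hen⟩
  set M := Nat.find hex with hMdef
  clear_value M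
  have hRn : Rn p k A z R ω M := ⟨fun m hm => hω m (by omega), hst, hM2, hM4⟩
  have hG := hRn.gm
  have hanti := sD1_anti (p := p) (k := k) (S := S) (A := A) (δ := δ) hM1
  have hcs : ∀ d ∈ Nr U, d ≠ cs p := by
    rintro d hd rfl
    exact hst (hTc _ hd)
  -- the nodes are free
  have hfa : ∀ a : Node, Good S a → ps a ∈ U' →
      ps a ∈ sD1 p k S A δ M ∧ ps a ∈ V ∧ ps a ∈ W := by
    intro a ha hU
    obtain ⟨d, h1, h2, c', rfl⟩ := good_ndm ha hU
    exact ⟨ndm_free hp hS hk hA hδ hM4 c' h2 (hcs d (hNU h1)), hV d (hTc d (hNU h1)) (ps_nbh c' d),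
      hW d h1 (ps_nbh c' d)⟩
  obtain ⟨fa1, fa2, fa3⟩ := hfa a ha ua
  obtain ⟨fb1, fb2, fb3⟩ := hfa b hb ub
  have hJJ : ∀ {x y : Node}, Jn (nod S) z R ω (gM p k A M) (aL S) x y →
      ps x ∈ sD1 p k S A δ M ∩ V → JoinedIn (sD1 p k S A δ M0 ∩ V) (ps x) (ps y) := by
    intro x y hJ hx
    exact (jn_joined hp hS hk hA hRn hδ hV hJ hx).mono
      (inter_subset_inter_left _ hanti)
  -- an edge of the future is in the strand of the tip
  have htipA : ∀ l, M0 ≤ l → l ≤ M → H192.me (run p k A M0) ∈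
      Arc (FK.Bq z R) ω (H192.me (run p k A l)) := by
    intro l h1 h2
    right
    have key : ∀ j, M0 + j ≤ M → (nx ω)^[j] (H192.me (run p k A M0)) =
        H192.me (run p k A (M0 + j)) := by
      intro j
      induction j with
      | zero => intro _; rfl
      | succ j ih =>
        intro hj
        rw [Function.iterate_succ_apply', ih (by omega),
          hRn.nxt (by omega) (hM3 _ (by omega) (by omega))]
        rfl
    refine ⟨l - M0, ?_, fun i hi => ?_⟩
    · rw [key (l - M0) (by omega), show M0 + (l - M0) = l by omega]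
    · rw [key i (by omega)]
      exact hM3 _ (by omega) (by omega)
  -- not joined to the strand of the tip
  have hnt : ∀ l, M0 ≤ l → l ≤ M → Tch z R (H192.me (run p k A l)) →
      ∀ e ∈ Arc (FK.Bq z R) ω (H192.me (run p k A l)), ∀ c',
        ¬ Jn (nod S) z R ω (gM p k A M) (aL S) a ((nod S).nd c' e) := by
    intro l h1 h2 h3 e he c' hJ
    have h4 := htipA l h1 h2
    have h5 : H192.me (run p k A M0) ∈ Arc (FK.Bq z R) ω e := Arc.trans (Arc.symm he) h4
    have heT := arc_tch h3 he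
    have heG : e ∈ gM p k A M := hG.sub ⟨l, h2, rfl⟩ he
    have hJ2 := hJ.trans (bank heG heT h5 c')
    rw [nod_me] at hJ2
    have h6 := hJJ hJ2 ⟨fa1, fa2⟩
    have hT0 : Tch z R (H192.me (run p k A M0)) := arc_tch h3 h4
    have h7 : run p k A M0 ≠ cs p := by
      intro h8
      rw [h8] at hT0
      exact hst hT0
    have h8 := (side_node hp hS hk hA hδ hM4 (V := V) c' (run_mem hp hS hA M0) h7
      (hV _ hT0)).mono (inter_subset_inter_left _ hanti)
    exact htip c' (h6.trans h8.symm)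
  -- an edge of the path which is seen nearby
  have hseen : ∀ x : ℂ, ∀ d ∈ Nr U', d.1 ∈ verts S → ∀ c', ∀ l < M0, d = run p k A l →
      JoinedIn (sD1 p k S A δ M ∩ W) x (ps (ndm S c' d)) →
      Sees p k S A δ M0 W x c' := by
    intro x d k1 k2 c' l hl he hJ
    refine ⟨l, hl, ?_⟩
    have h3 := side_node hp hS hk hA hδ hM4 (V := W) c' k2 (hcs _ (hNU k1)) (hW _ k1)
    rw [← he]
    exact ((hJ.trans h3.symm).mono (inter_subset_inter_left _ hanti))
  -- the wall at `a`
  have wa : (∃ d ∈ Nr U, H192.me d ∈ gM p k A M ∧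
      Jn (nod S) z R ω (gM p k A M) (aL S) a (ndm S c d)) ∨
      (ca = c ∧ Jn (nod S) z R ω (gM p k A M) (aL S) a (ndm S c da)) := by
    rcases first_edge hp hS hk hA hRn hδ (fun d hd => hTc d (hNU hd)) hW ea ⟨fa1, fa3⟩ with
      ⟨h1, h2⟩ | ⟨d, h1, h2, l, h3, h4, c0, -, h5, h6⟩
    · right
      have hca : ca = c := by
        by_contra hne
        have h3 : ca = !c := by revert hne; cases ca <;> cases c <;> simp
        exact sa' h3 (h2.mono (inter_subset_inter_left _ hanti))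
      subst hca
      exact ⟨rfl, h1⟩
    · left
      have hl : l < M0 := by
        by_contra hcon
        push Not at hcon
        have h7 : Tch z R (H192.me (run p k A l)) := by rw [← h4]; exact hTc _ (hNU h1)
        refine hnt l hcon h3 h7 _ (self_mem_Arc _ _ _) c0 ?_
        rw [← h4, nod_me]
        exact h5
      have hc0 : c0 = c := by
        by_contra hne
        have h7 : c0 = !c := by revert hne; cases c0 <;> cases c <;> simp
        rw [h7] at h6
        exact sa (hseen _ d h1 h2 (!c) l hl h4 h6)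
      subst hc0
      exact ⟨d, hNU h1, ⟨l, h3, by rw [h4]⟩, h5⟩
  -- the wall at `b`
  have wb : ((∃ d ∈ Nr U, H192.me d ∈ gM p k A M ∧
      Jn (nod S) z R ω (gM p k A M) (aL S) b (ndm S c d)) ∨
      (cb = c ∧ Jn (nod S) z R ω (gM p k A M) (aL S) b (ndm S c db))) ∨
      ∃ d ∈ Nr U', d.1 ∈ verts S ∧ ∃ l, M0 ≤ l ∧ l ≤ M ∧ d = run p k A l ∧ ∃ c0,
        ReflTransGen (Us S (Nr U')) b (ndm S c0 d) := by
    rcases first_edge hp hS hk hA hRn hδ (fun d hd => hTc d (hNU hd)) hW eb ⟨fb1, fb3⟩ with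
      ⟨h1, h2⟩ | ⟨d, h1, h2, l, h3, h4, c0, h5', h5, h6⟩
    · left; right
      have hcb : cb = c := by
        by_contra hne
        have h3 : cb = !c := by revert hne; cases cb <;> cases c <;> simp
        exact sb' h3 (h2.mono (inter_subset_inter_left _ hanti))
      subst hcb
      exact ⟨rfl, h1⟩
    · by_cases hl : l < M0
      · left; left
        have hc0 : c0 = c := by
          by_contra hne
          have h7 : c0 = !c := by revert hne; cases c0 <;> cases c <;> simp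
          rw [h7] at h6
          exact sb (hseen _ d h1 h2 (!c) l hl h4 h6)
        subst hc0
        exact ⟨d, hNU h1, ⟨l, h3, by rw [h4]⟩, h5⟩
      · right
        exact ⟨d, h1, h2, l, by omega, h3, h4, c0, h5'⟩
  -- a side of the other colour at a node with a wall of the colour `c`
  have hgap : ∀ x : Node, ∀ dx : Medial, ∀ cx : Bool, (dx = da ∧ cx = ca ∨ dx = db ∧ cx = cb) →
      ((∃ d ∈ Nr U, H192.me d ∈ gM p k A M ∧
        Jn (nod S) z R ω (gM p k A M) (aL S) x (ndm S c d)) ∨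
        (cx = c ∧ Jn (nod S) z R ω (gM p k A M) (aL S) x (ndm S c dx))) →
      ∀ d ∈ Nr U, H192.me d ∈ gM p k A M →
        Jn (nod S) z R ω (gM p k A M) (aL S) x (ndm S (!c) d) →
      M3 z R r h ω ∨ ∃ M, Rn p k A z R ω M ∧ ∃ d1 ∈ Nr U, H192.me d1 ∈ gM p k A M ∧
        ∃ d2, (d2 = da ∧ ca = c ∨ d2 = db ∧ cb = c) ∧
          Jn (nod S) z R ω (gM p k A M) (aL S) (ndm S (!c) d1) (ndm S c d2) := by
    intro x dx cx hx hw d h1 h2 h3
    rcases hw with ⟨d', g1, g2, g3⟩ | ⟨g1, g2⟩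
    · left
      refine gap (ν := nod S) (AL := aL S) hG hrR hQ (c := c) g2 h2 (hUQ _ g1) (hUQ _ h1) ?_
      rw [nod_me, nod_me]
      exact (g3.symm hG).trans h3
    · right
      refine ⟨M, hRn, d, h1, h2, dx, ?_, (h3.symm hG).trans g2⟩
      rcases hx with ⟨h4, h5⟩ | ⟨h4, h5⟩
      · exact Or.inl ⟨h4, by rw [← h5]; exact g1⟩
      · exact Or.inr ⟨h4, by rw [← h5]; exact g1⟩
  -- the main step, for a given chain
  have main : ∀ (m : ℕ) (P : ℕ → Node) (D : ℕ → Medial), P 0 = a →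
      (∀ i < m, D i ∈ Nr U ∧ (D i).1 ∈ verts S ∧
        ∃ c, P i = ndm S c (D i) ∧ P (i + 1) = ndm S (!c) (D i)) →
      ¬ Jn (nod S) z R ω (gM p k A M) (aL S) (P 0) (P m) →
      (M3 z R r h ω ∨ (∃ M, Rn p k A z R ω M ∧ ∃ d1 ∈ Nr U, H192.me d1 ∈ gM p k A M ∧
        ∃ d2, (d2 = da ∧ ca = c ∨ d2 = db ∧ cb = c) ∧
          Jn (nod S) z R ω (gM p k A M) (aL S) (ndm S (!c) d1) (ndm S c d2)) ∨
        ∃ j < m, (∀ i, j < i → i < m → H192.me (D i) ∉ gM p k A M) ∧
        ∃ l ≤ M, D j = run p k A l ∧ (M0 ≤ l ∨ P (j + 1) = ndm S c (D j))) →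
      M3 z R r h ω ∨ ∃ M, Rn p k A z R ω M ∧ ∃ d1 ∈ Nr U, H192.me d1 ∈ gM p k A M ∧
        ∃ d2, (d2 = da ∧ ca = c ∨ d2 = db ∧ cb = c) ∧
          Jn (nod S) z R ω (gM p k A M) (aL S) (ndm S (!c) d1) (ndm S c d2) := by
    intro m P D hP0 hch nj hfv
    have hs : ∀ i < m, US (nod S) z R (aL S) (P i) (P (i + 1)) (H192.me (D i)) := by
      intro i hi
      obtain ⟨h1, h2, c', h3, h4⟩ := hch i hi
      refine ⟨?_, hTc _ h1, c', ?_, ?_⟩
      · show (H192.me' (H192.me (D i))).1 ∈ verts S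
        rw [H192.me'_me]
        exact h2
      · rw [nod_me]; exact h3
      · rw [nod_me]; exact h4
    rcases hfv with hfv | hfv | hfv
    · exact Or.inl hfv
    · exact Or.inr hfv
    have hoff : ∀ i, i ≤ m → (∀ l < i, H192.me (D l) ∉ gM p k A M) →
        Jn (nod S) z R ω (gM p k A M) (aL S) (P 0) (P i) := by
      intro i
      induction i with
      | zero => intro _ _; exact ReflTransGen.refl
      | succ i ih =>
        intro hi hl
        obtain ⟨g1, g2, c', g3, g4⟩ := hs i (by omega)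
        exact (ih (by omega) fun l h1 => hl l (by omega)).tail
          (Or.inl ⟨_, g1, hl i (by omega), g2, c', g3, g4⟩)
    have hexx : ∃ i, i < m ∧ H192.me (D i) ∈ gM p k A M := by
      by_contra hno
      push Not at hno
      exact nj (hoff m le_rfl fun l h2 => hno l h2)
    obtain ⟨hi0, hiG⟩ := Nat.find_spec hexx
    have hmin : ∀ j < Nat.find hexx, H192.me (D j) ∉ gM p k A M := fun j hj hG' =>
      Nat.find_min hexx hj ⟨by omega, hG'⟩
    set i0 := Nat.find hexx with hi0def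
    clear_value i0
    have hoff0 := hoff i0 hi0.le hmin
    obtain ⟨k1, k2, c0, k3, k4⟩ := hch i0 hi0
    by_cases hc0 : c0 = c
    swap
    · have h3 : c0 = !c := by revert hc0; cases c0 <;> cases c <;> simp
      refine hgap a da ca (Or.inl ⟨rfl, rfl⟩) wa (D i0) k1 hiG ?_
      rw [← h3, ← k3, ← hP0]
      exact hoff0
    subst hc0
    obtain ⟨j0, hj0lt, hj0m, l1, hl1, hl1e, hfv⟩ := hfv
    left
    refine conflict (ν := nod S) (AL := aL S) hG hrR hQ (c := c0) (n := m) (p := P)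
      (E := fun i => H192.me (D i)) hs (fun i hi => hUQ _ (hch i hi).1) nj
      ⟨i0, hi0, hmin, hiG, by rw [nod_me]; exact k3⟩
      {e | ∃ l, M0 ≤ l ∧ l ≤ M ∧ e = H192.me (run p k A l)}
      ⟨j0, hj0lt, hj0m, ⟨l1, hl1, by rw [hl1e]⟩, ?_⟩ ?_ (by rw [hP0]; exact hq)
        (by rw [hP0]; exact hqt) ht
    · rcases hfv with h1 | h1
      · exact Or.inr ⟨l1, h1, hl1, by rw [hl1e]⟩
      · left
        rw [nod_me]
        exact h1
    · rintro j hj ⟨l, h1, h2, h3⟩ e he c'
      have h3' : H192.me (D j) = H192.me (run p k A l) := h3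
      have h4 : Tch z R (H192.me (run p k A l)) := by
        rw [← h3']
        exact hTc _ (hch j hj).1
      have he' : e ∈ Arc (FK.Bq z R) ω (H192.me (run p k A l)) := by
        rw [← h3']
        exact he
      rw [hP0]
      exact hnt l h1 h2 h4 e he' c'
  have hchn := chain_nodes ha hb hab
  rcases wb with wb | ⟨dt, t1, t2, lt, t3, t4, t5, ct, t6⟩
  · obtain ⟨m, P, D, hP0, hPm, hch⟩ := chain_index hchn
    have nj : ¬ Jn (nod S) z R ω (gM p k A M) (aL S) (P 0) (P m) := by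
      intro hJ
      rw [hP0, hPm] at hJ
      exact hn (hJJ hJ ⟨fa1, fa2⟩)
    refine main m P D hP0 hch nj ?_
    -- the last edge of the path
    have hs : ∀ i < m, US (nod S) z R (aL S) (P i) (P (i + 1)) (H192.me (D i)) := by
      intro i hi
      obtain ⟨h1, h2, c', h3, h4⟩ := hch i hi
      refine ⟨?_, hTc _ h1, c', ?_, ?_⟩
      · show (H192.me' (H192.me (D i))).1 ∈ verts S
        rw [H192.me'_me]
        exact h2
      · rw [nod_me]; exact h3
      · rw [nod_me]; exact h4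
    have hoff : ∀ j, j ≤ m → ∀ i, i ≤ j → (∀ l, i ≤ l → l < j → H192.me (D l) ∉ gM p k A M) →
        Jn (nod S) z R ω (gM p k A M) (aL S) (P i) (P j) := by
      intro j
      induction j with
      | zero =>
        intro _ i hi _
        obtain rfl : i = 0 := by omega
        exact ReflTransGen.refl
      | succ j ih =>
        intro hj i hij hl
        rcases Nat.lt_or_ge j i with h1 | h1
        · obtain rfl : i = j + 1 := by omega
          exact ReflTransGen.refl
        · obtain ⟨g1, g2, c', g3, g4⟩ := hs j (by omega)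
          exact (ih (by omega) i h1 fun l h2 h3 => hl l h2 (by omega)).tail
            (Or.inl ⟨_, g1, hl j h1 (by omega), g2, c', g3, g4⟩)
    have hexx : ∃ i, i < m ∧ H192.me (D i) ∈ gM p k A M := by
      by_contra hno
      push Not at hno
      exact nj (hoff m le_rfl 0 (Nat.zero_le _) fun l _ h2 => hno l h2)
    obtain ⟨i0, hi0, hiG⟩ := hexx
    set j0 := Nat.findGreatest (fun j => j < m ∧ H192.me (D j) ∈ gM p k A M) m with hj0
    have hj0s : j0 < m ∧ H192.me (D j0) ∈ gM p k A M :=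
      Nat.findGreatest_spec (P := fun j => j < m ∧ H192.me (D j) ∈ gM p k A M) hi0.le
        ⟨hi0, hiG⟩
    have hj0m : ∀ i, j0 < i → i < m → H192.me (D i) ∉ gM p k A M := fun i h1 h2 h3 =>
      Nat.findGreatest_is_greatest h1 h2.le ⟨h2, h3⟩
    clear_value j0
    have hoffn := hoff m le_rfl (j0 + 1) (by omega) fun l h1 h2 => hj0m l (by omega) h2
    obtain ⟨hj0lt, l1, hl1, hl1e⟩ := hj0s
    obtain ⟨q1, q2, c1, q3, q4⟩ := hch j0 hj0lt
    by_cases hc1 : (!c1) = c
    · exact Or.inr (Or.inr ⟨j0, hj0lt, hj0m, l1, hl1, H192.me_inj hl1e,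
        Or.inr (by rw [q4, hc1])⟩)
    · have h3 : (!c1) = !c := by revert hc1; cases c1 <;> cases c <;> simp
      rw [h3] at q4
      rw [hPm] at hoffn
      rcases hgap b db cb (Or.inr ⟨rfl, rfl⟩) wb (D j0) q1 ⟨l1, hl1, hl1e⟩
        (by rw [← q4]; exact hoffn.symm hG) with h4 | h4
      · exact Or.inl h4
      · exact Or.inr (Or.inl h4)
  · -- the second node sees the strand of the tip
    have hch2 : ReflTransGen (Us S (Nr U)) a (ndm S ct dt) :=
      hchn.trans (by
        exact us_mono hNU t6)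
    obtain ⟨m, P, D, hP0, hPm, hDm, hch⟩ := chain_snoc hch2 (hNU t1) t2
    refine main (m + 1) P D hP0 hch ?_ (Or.inr (Or.inr ⟨m, by omega, fun i h1 h2 => by omega, lt,
      t4, by rw [hDm, t5], Or.inl t3⟩))
    intro hJ
    rw [hP0, hPm] at hJ
    have h7 : Tch z R (H192.me (run p k A lt)) := by rw [← t5]; exact hTc _ (hNU t1)
    refine hnt lt t3 t4 h7 _ (self_mem_Arc _ _ _) (!ct) ?_
    rw [← t5, nod_me]
    exact hJ

end

end Vale.Agent.P167.H174.BD
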