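import Vale.Agent.P167.H174.BD.Bn

/-!
# P167, general `q`, [BAD]: a conflict pair with an arm, all cases (nodes), abstract boundary nodes

`bad_nodes3`: as `bad_nodes2`, the walls of the two nodes are darts of the path (the last dart included)
or nodes of a set `Bd`; the wall of the first node is that of a node `a'` which is joined to it off the
past of the path.
-/

set_option autoImplicit false
set_option linter.unusedVariables false
set_option linter.unusedSectionVars false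

open Set Metric Relation

namespace Vale.Agent.P167.H174.BD

open Vale.Agent.P145.FB (PStep)
open Vale.Agent.P167.E6 Vale.Agent.P167.E2 Vale.Agent.P167.Fjord
open Vale.Agent.P167.H166
open Vale.Agent.P167.H531.Q (Tch Gm M3 Sm BC bq_mono')
open Vale.Agent.P167.H531.K

variable {n : ℕ} {p : ZMod n → ℤ × ℤ} {S : Finset (ℤ × ℤ)} {k : ℕ} {A : Finset (Sym2 (ℤ × ℤ))}
  {z : ℤ × ℤ} {R r h : ℤ} {ω : Cfg} {M M0 : ℕ} {δ : ℝ}

/-- A step off the past of the path, or along one side of the past. -/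
def JS (p : ZMod n → ℤ × ℤ) (k : ℕ) (S : Finset (ℤ × ℤ)) (A : Finset (Sym2 (ℤ × ℤ))) (M0 : ℕ)
    (T : Set Medial) (a b : Node) : Prop :=
  (∃ d ∈ T, d.1 ∈ verts S ∧ (∀ l < M0, d ≠ run p k A l) ∧ ∃ c, a = ndm S c d ∧ b = ndm S (!c) d) ∨
  ∃ m < M0, run p k A m ∈ T ∧ ∃ c, (a = ndm S c (run p k A m) ∧ b = ndm S c (run p k A (m + 1))) ∨
    (a = ndm S c (run p k A (m + 1)) ∧ b = ndm S c (run p k A m))

section

variable (hp : IsPolygon p) (hS : Encloses p S) (hk : k + 1 < n) (hA : A ⊆ edges S)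
include hp hS hk hA

/-- **The deterministic inclusion (nodes), all cases.** -/
theorem bad_nodes3 (hδ : 0 < δ) (hM0 : M0 ≤ len p k A)
    (hω : ∀ m ≤ len p k A, hdv (H192.me (run p k A m)) ∈ FK.Bq z R →
      ω (hdv (H192.me (run p k A m))) =
        H192.cfg (wiredOpen p k A) (hdv (H192.me (run p k A m))))
    (hst : ¬ Tch z R (H192.me (cs p))) (hen : hdv (H192.me (ce p k)) ∉ FK.Bq z R)
    {V : Set ℂ} (hV : ∀ d, Tch z R (H192.me d) → nbh d ⊆ V) {U U' W : Set ℂ} {Q : Set (ℤ × ℤ)}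
    (hQ : Sm z r h Q) (hrR : r ≤ R) (hUQ : ∀ d ∈ Nr U, hdv (H192.me d) ∈ Q) (hUU : U' ⊆ U)
    (hW : ∀ d ∈ Nr U', nbh d ⊆ W) {a a' b : Node} (ha : Good S a) (ha' : Good S a')
    (hb : Good S b) (haa : ReflTransGen (JS p k S A M0 (Nr U)) a a')
    (hab : JoinedIn (O1 (S : Set (ℤ × ℤ)) ∩ U) (ps a) (ps b))
    (hn : ¬ JoinedIn (sD1 p k S A δ M0 ∩ V) (ps a) (ps b)) {c : Bool}
    (sa : ¬ Sees p k S A δ M0 W (ps a') (!c)) (sb : ¬ Sees p k S A δ M0 W (ps b) (!c))
    (ua : ps a' ∈ U') (ub : ps b ∈ U') {Bd : Node → Prop}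
    (ea : ∃ b', ReflTransGen (Us S (Nr U')) a' b' ∧ (Bd b' ∨ ∃ d ∈ Nr U', d.1 ∈ verts S ∧
      ∃ l ≤ M0, d = run p k A l ∧ ∃ c0, b' = ndm S c0 d))
    (eb : ∃ b', ReflTransGen (Us S (Nr U')) b b' ∧ (Bd b' ∨ ∃ d ∈ Nr U', d.1 ∈ verts S ∧
      ∃ l ≤ M0, d = run p k A l ∧ ∃ c0, b' = ndm S c0 d))
    (htip : Tch z R (H192.me (run p k A M0)) → ∀ c',
      ¬ JoinedIn (sD1 p k S A δ M0 ∩ V) (ps a) (sid c' (run p k A M0)))
    {t : ℤ × ℤ} (hq : (((nod S).cor a).1 + ((nod S).cor a).2) % 2 = QC.par (!c))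
    (hqt : ReflTransGen (PStep {v | v ∈ FK.Bq z R ∧ ω v = !c}) ((nod S).cor a) t)
    (ht : BC z R t) :
    M3 z R r h ω ∨ ∃ M, Rn p k A z R ω M ∧ ∃ d1 ∈ Nr U, H192.me d1 ∈ gM p k A M ∧
      ∃ b', Bd b' ∧ Jn (nod S) z R ω (gM p k A M) (aL S) (ndm S (!c) d1) b' := by
  classical
  have hk' : k < n := by omega
  have hB : ∀ v ∈ Q, v ∈ FK.Bq z R := fun v hv => bq_mono' hrR (hQ.b v hv)
  have hTc : ∀ d ∈ Nr U, Tch z R (H192.me d) := fun d hd => Or.inl (hB _ (hUQ d hd))
  have hNU : Nr U' ⊆ Nr U := fun d ⟨u, hu, hd⟩ => ⟨u, hUU hu, hd⟩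
  have hUU' : ∀ {x y : Node}, Us S (Nr U') x y → Us S (Nr U) x y := by
    rintro x y ⟨d, hd, h2⟩
    exact ⟨d, hNU hd, h2⟩
  -- the exit
  have hex : ∃ i, M0 ≤ i ∧ hdv (H192.me (run p k A i)) ∉ FK.Bq z R :=
    ⟨len p k A, hM0, by rw [run_len hp hS hk' hA]; exact hen⟩
  obtain ⟨hM1, hM2⟩ := Nat.find_spec hex
  have hM3 : ∀ i, M0 ≤ i → i < Nat.find hex → hdv (H192.me (run p k A i)) ∈ FK.Bq z R :=
    fun i h1 h2 => by_contra fun h3 => Nat.find_min hex h2 ⟨h1, h3⟩
  have hM4 : Nat.find hex ≤ len p k A :=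
    Nat.find_min' hex ⟨hM0, by rw [run_len hp hS hk' hA]; exact hen⟩
  set M := Nat.find hex with hMdef
  clear_value M
  have hRn : Rn p k A z R ω M := ⟨fun m hm => hω m (by omega), hst, hM2, hM4⟩
  have hG := hRn.gm
  have hanti := sD1_anti (p := p) (k := k) (S := S) (A := A) (δ := δ) hM1
  have hcs : ∀ d ∈ Nr U, d ≠ cs p := by
    rintro d hd rfl
    exact hst (hTc _ hd)
  -- the nodes are free
  have hfU : ∀ a : Node, Good S a → ps a ∈ U → ps a ∈ sD1 p k S A δ M ∧ ps a ∈ V := by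
    intro a ha hU
    obtain ⟨d, h1, h2, c', rfl⟩ := good_ndm ha hU
    exact ⟨ndm_free hp hS hk hA hδ hM4 c' h2 (hcs d h1), hV d (hTc d h1) (ps_nbh c' d)⟩
  have hfW : ∀ a : Node, Good S a → ps a ∈ U' → ps a ∈ W := by
    intro a ha hU
    obtain ⟨d, h1, h2, c', rfl⟩ := good_ndm ha hU
    exact hW d h1 (ps_nbh c' d)
  obtain ⟨fa1, fa2⟩ := hfU a ha hab.source_mem.2
  obtain ⟨fb1, fb2⟩ := hfU b hb (hUU ub)
  have fb3 := hfW b hb ub
  obtain ⟨fa1', fa2'⟩ := hfU a' ha' (hUU ua)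
  have fa3' := hfW a' ha' ua
  have hJJ : ∀ {x y : Node}, Jn (nod S) z R ω (gM p k A M) (aL S) x y →
      ps x ∈ sD1 p k S A δ M ∩ V → JoinedIn (sD1 p k S A δ M0 ∩ V) (ps x) (ps y) := by
    intro x y hJ hx
    exact (jn_joined hp hS hk hA hRn hδ hV hJ hx).mono
      (inter_subset_inter_left _ hanti)
  -- an edge of the future is in the strand of the tip
  have htipA : ∀ l, M0 ≤ l → l ≤ M → H192.me (run p k A M0) ∈
      Arc (FK.Bq z R) ω (H192.me (run p k A l)) := by
    intro l h1 h2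
    right
    have key : ∀ j, M0 + j ≤ M → (nx ω)^[j] (H192.me (run p k A M0)) =
        H192.me (run p k A (M0 + j)) := by
      intro j
      induction j with
      | zero => intro _; rfl
      | succ j ih =>
        intro hj
        rw [Function.iterate_succ_apply', ih (by omega),
          hRn.nxt (by omega) (hM3 _ (by omega) (by omega))]
        rfl
    refine ⟨l - M0, ?_, fun i hi => ?_⟩
    · rw [key (l - M0) (by omega), show M0 + (l - M0) = l by omega]
    · rw [key i (by omega)]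
      exact hM3 _ (by omega) (by omega)
  -- not joined to the strand of the tip
  have hnt : ∀ l, M0 ≤ l → l ≤ M → Tch z R (H192.me (run p k A l)) →
      ∀ e ∈ Arc (FK.Bq z R) ω (H192.me (run p k A l)), ∀ c',
        ¬ Jn (nod S) z R ω (gM p k A M) (aL S) a ((nod S).nd c' e) := by
    intro l h1 h2 h3 e he c' hJ
    have h4 := htipA l h1 h2
    have h5 : H192.me (run p k A M0) ∈ Arc (FK.Bq z R) ω e := Arc.trans (Arc.symm he) h4
    have heT := arc_tch h3 he
    have heG : e ∈ gM p k A M := hG.sub ⟨l, h2, rfl⟩ he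
    have hJ2 := hJ.trans (bank heG heT h5 c')
    rw [nod_me] at hJ2
    have h6 := hJJ hJ2 ⟨fa1, fa2⟩
    have hT0 : Tch z R (H192.me (run p k A M0)) := arc_tch h3 h4
    have h7 : run p k A M0 ≠ cs p := by
      intro h8
      rw [h8] at hT0
      exact hst hT0
    have h8 := (side_node hp hS hk hA hδ hM4 (V := V) c' (run_mem hp hS hA M0) h7
      (hV _ hT0)).mono (inter_subset_inter_left _ hanti)
    exact htip hT0 c' (h6.trans h8.symm)
  -- the chain to `a'`
  have hJaa : Jn (nod S) z R ω (gM p k A M) (aL S) a a' := by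
    clear sa ua ea fa1' fa2' fa3' ha'
    induction haa with
    | refl => exact ReflTransGen.refl
    | @tail x y hx hs ih =>
      rcases hs with ⟨d, hd, hv, hl, c', rfl, rfl⟩ | ⟨m, hm, hr, c', hc'⟩
      · by_cases hG' : ∃ l ≤ M, d = run p k A l
        · exfalso
          obtain ⟨l, hlM, hdl⟩ := hG'
          have hlM0 : M0 ≤ l := by
            by_contra hcon
            exact hl l (by omega) hdl
          have h3 : Tch z R (H192.me (run p k A l)) := by rw [← hdl]; exact hTc _ hd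
          refine hnt l hlM0 hlM h3 _ (self_mem_Arc _ _ _) c' ?_
          rw [nod_me, ← hdl]
          exact ih
        · refine ih.tail (Or.inl ⟨H192.me d, ?_, ?_, hTc d hd, c', by rw [nod_me], by rw [nod_me]⟩)
          · show (H192.me' (H192.me d)).1 ∈ verts S
            rw [H192.me'_me]
            exact hv
          · rintro ⟨l, hl', he⟩
            exact hG' ⟨l, hl', H192.me_inj he⟩
      · have hb1 : hdv (H192.me (run p k A m)) ∈ FK.Bq z R := hB _ (hUQ _ hr)
        have he : nx ω (H192.me (run p k A m)) = H192.me (run p k A (m + 1)) :=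
          hRn.nxt (by omega) hb1
        have hA1 : H192.me (run p k A (m + 1)) ∈ Arc (FK.Bq z R) ω (H192.me (run p k A m)) := by
          left
          refine ⟨1, ?_, fun i hi => ?_⟩
          · rw [Function.iterate_one, he]
          · have : i = 0 := by omega
            subst this
            exact hb1
        have hst' : H531.K.Stp (nod S) z R ω (gM p k A M) (aL S) (ndm S c' (run p k A m))
            (ndm S c' (run p k A (m + 1))) :=
          Or.inr ⟨H192.me (run p k A m), ⟨m, by omega, rfl⟩, hTc _ hr,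
            H192.me (run p k A (m + 1)), hA1, c', by rw [nod_me], by rw [nod_me]⟩
        rcases hc' with ⟨rfl, rfl⟩ | ⟨rfl, rfl⟩
        · exact ih.tail hst'
        · exact ih.tail (hst'.symm hG)
  -- an edge of the path which is seen nearby
  have hseen : ∀ x : ℂ, ∀ d ∈ Nr U', d.1 ∈ verts S → ∀ c', ∀ l < M0, d = run p k A l →
      JoinedIn (sD1 p k S A δ M ∩ W) x (ps (ndm S c' d)) →
      Sees p k S A δ M0 W x c' := by
    intro x d k1 k2 c' l hl he hJ
    refine ⟨l, hl, ?_⟩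
    have h3 := side_node hp hS hk hA hδ hM4 (V := W) c' k2 (hcs _ (hNU k1)) (hW _ k1)
    rw [← he]
    exact ((hJ.trans h3.symm).mono (inter_subset_inter_left _ hanti))
  -- a wall, in general
  have hwall : ∀ x : Node, ps x ∈ sD1 p k S A δ M ∩ W →
      (∃ b', ReflTransGen (Us S (Nr U')) x b' ∧ (Bd b' ∨ ∃ d ∈ Nr U', d.1 ∈ verts S ∧
        ∃ l ≤ M0, d = run p k A l ∧ ∃ c0, b' = ndm S c0 d)) →
      (∃ b', Bd b' ∧ Jn (nod S) z R ω (gM p k A M) (aL S) x b') ∨
      ∃ d ∈ Nr U', d.1 ∈ verts S ∧ ∃ l ≤ M, d = run p k A l ∧ ∃ c0,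
        ReflTransGen (Us S (Nr U')) x (ndm S c0 d) ∧
        Jn (nod S) z R ω (gM p k A M) (aL S) x (ndm S c0 d) ∧
        JoinedIn (sD1 p k S A δ M ∩ W) (ps x) (ps (ndm S c0 d)) := by
    intro x hx ⟨b', g1, g2⟩
    rcases first_edge hp hS hk hA hRn hδ (fun d hd => hTc d (hNU hd)) hW g1 hx with
      ⟨h1, h2⟩ | h1
    · rcases g2 with g2 | ⟨d, k1, k2, l, k3, k4, c0, rfl⟩
      · exact Or.inl ⟨b', g2, h1⟩
      · exact Or.inr ⟨d, k1, k2, l, k3.trans hM1, k4, c0, g1, h1, h2⟩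
    · exact Or.inr h1
  -- the wall at `a`
  have wa : (∃ d ∈ Nr U, H192.me d ∈ gM p k A M ∧
      Jn (nod S) z R ω (gM p k A M) (aL S) a (ndm S c d)) ∨
      (∃ b', Bd b' ∧ Jn (nod S) z R ω (gM p k A M) (aL S) a b') := by
    rcases hwall a' ⟨fa1', fa3'⟩ ea with ⟨b', h1, h2⟩ | ⟨d, h1, h2, l, h3, h4, c0, -, h5, h6⟩
    · exact Or.inr ⟨b', h1, hJaa.trans h2⟩
    · left
      have hl : l < M0 := by
        by_contra hcon
        push Not at hcon
        have h7 : Tch z R (H192.me (run p k A l)) := by rw [← h4]; exact hTc _ (hNU h1)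
        refine hnt l hcon h3 h7 _ (self_mem_Arc _ _ _) c0 ?_
        rw [← h4, nod_me]
        exact hJaa.trans h5
      have hc0 : c0 = c := by
        by_contra hne
        have h7 : c0 = !c := by revert hne; cases c0 <;> cases c <;> simp
        rw [h7] at h6
        exact sa (hseen _ d h1 h2 (!c) l hl h4 h6)
      subst hc0
      exact ⟨d, hNU h1, ⟨l, h3, by rw [h4]⟩, hJaa.trans h5⟩
  -- the wall at `b`
  have wb : ((∃ d ∈ Nr U, H192.me d ∈ gM p k A M ∧
      Jn (nod S) z R ω (gM p k A M) (aL S) b (ndm S c d)) ∨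
      (∃ b', Bd b' ∧ Jn (nod S) z R ω (gM p k A M) (aL S) b b')) ∨
      ∃ d ∈ Nr U', d.1 ∈ verts S ∧ ∃ l, M0 ≤ l ∧ l ≤ M ∧ d = run p k A l ∧ ∃ c0,
        ReflTransGen (Us S (Nr U')) b (ndm S c0 d) := by
    rcases hwall b ⟨fb1, fb3⟩ eb with h1 | ⟨d, h1, h2, l, h3, h4, c0, h5', h5, h6⟩
    · exact Or.inl (Or.inr h1)
    · by_cases hl : l < M0
      · left; left
        have hc0 : c0 = c := by
          by_contra hne
          have h7 : c0 = !c := by revert hne; cases c0 <;> cases c <;> simp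
          rw [h7] at h6
          exact sb (hseen _ d h1 h2 (!c) l hl h4 h6)
        subst hc0
        exact ⟨d, hNU h1, ⟨l, h3, by rw [h4]⟩, h5⟩
      · right
        exact ⟨d, h1, h2, l, by omega, h3, h4, c0, h5'⟩
  -- a side of the other colour at a node with a wall of the colour `c`
  have hgap : ∀ x : Node,
      ((∃ d ∈ Nr U, H192.me d ∈ gM p k A M ∧
        Jn (nod S) z R ω (gM p k A M) (aL S) x (ndm S c d)) ∨
        (∃ b', Bd b' ∧ Jn (nod S) z R ω (gM p k A M) (aL S) x b')) →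
      ∀ d ∈ Nr U, H192.me d ∈ gM p k A M →
        Jn (nod S) z R ω (gM p k A M) (aL S) x (ndm S (!c) d) →
      M3 z R r h ω ∨ ∃ M, Rn p k A z R ω M ∧ ∃ d1 ∈ Nr U, H192.me d1 ∈ gM p k A M ∧
        ∃ b', Bd b' ∧ Jn (nod S) z R ω (gM p k A M) (aL S) (ndm S (!c) d1) b' := by
    intro x hw d h1 h2 h3
    rcases hw with ⟨d', g1, g2, g3⟩ | ⟨b', g1, g2⟩
    · left
      refine gap (ν := nod S) (AL := aL S) hG hrR hQ (c := c) g2 h2 (hUQ _ g1) (hUQ _ h1) ?_
      rw [nod_me, nod_me]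
      exact (g3.symm hG).trans h3
    · exact Or.inr ⟨M, hRn, d, h1, h2, b', g1, (h3.symm hG).trans g2⟩
  -- the main step, for a given chain
  have main : ∀ (m : ℕ) (P : ℕ → Node) (D : ℕ → Medial), P 0 = a →
      (∀ i < m, D i ∈ Nr U ∧ (D i).1 ∈ verts S ∧
        ∃ c, P i = ndm S c (D i) ∧ P (i + 1) = ndm S (!c) (D i)) →
      ¬ Jn (nod S) z R ω (gM p k A M) (aL S) (P 0) (P m) →
      (M3 z R r h ω ∨ (∃ M, Rn p k A z R ω M ∧ ∃ d1 ∈ Nr U, H192.me d1 ∈ gM p k A M ∧
        ∃ b', Bd b' ∧ Jn (nod S) z R ω (gM p k A M) (aL S) (ndm S (!c) d1) b') ∨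
        ∃ j < m, (∀ i, j < i → i < m → H192.me (D i) ∉ gM p k A M) ∧
        ∃ l ≤ M, D j = run p k A l ∧ (M0 ≤ l ∨ P (j + 1) = ndm S c (D j))) →
      M3 z R r h ω ∨ ∃ M, Rn p k A z R ω M ∧ ∃ d1 ∈ Nr U, H192.me d1 ∈ gM p k A M ∧
        ∃ b', Bd b' ∧ Jn (nod S) z R ω (gM p k A M) (aL S) (ndm S (!c) d1) b' := by
    intro m P D hP0 hch nj hfv
    have hs : ∀ i < m, US (nod S) z R (aL S) (P i) (P (i + 1)) (H192.me (D i)) := by
      intro i hi
      obtain ⟨h1, h2, c', h3, h4⟩ := hch i hi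
      refine ⟨?_, hTc _ h1, c', ?_, ?_⟩
      · show (H192.me' (H192.me (D i))).1 ∈ verts S
        rw [H192.me'_me]
        exact h2
      · rw [nod_me]; exact h3
      · rw [nod_me]; exact h4
    rcases hfv with hfv | hfv | hfv
    · exact Or.inl hfv
    · exact Or.inr hfv
    have hoff : ∀ i, i ≤ m → (∀ l < i, H192.me (D l) ∉ gM p k A M) →
        Jn (nod S) z R ω (gM p k A M) (aL S) (P 0) (P i) := by
      intro i
      induction i with
      | zero => intro _ _; exact ReflTransGen.refl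
      | succ i ih =>
        intro hi hl
        obtain ⟨g1, g2, c', g3, g4⟩ := hs i (by omega)
        exact (ih (by omega) fun l h1 => hl l (by omega)).tail
          (Or.inl ⟨_, g1, hl i (by omega), g2, c', g3, g4⟩)
    have hexx : ∃ i, i < m ∧ H192.me (D i) ∈ gM p k A M := by
      by_contra hno
      push Not at hno
      exact nj (hoff m le_rfl fun l h2 => hno l h2)
    obtain ⟨hi0, hiG⟩ := Nat.find_spec hexx
    have hmin : ∀ j < Nat.find hexx, H192.me (D j) ∉ gM p k A M := fun j hj hG' =>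
      Nat.find_min hexx hj ⟨by omega, hG'⟩
    set i0 := Nat.find hexx with hi0def
    clear_value i0
    have hoff0 := hoff i0 hi0.le hmin
    obtain ⟨k1, k2, c0, k3, k4⟩ := hch i0 hi0
    by_cases hc0 : c0 = c
    swap
    · have h3 : c0 = !c := by revert hc0; cases c0 <;> cases c <;> simp
      refine hgap a wa (D i0) k1 hiG ?_
      rw [← h3, ← k3, ← hP0]
      exact hoff0
    subst hc0
    obtain ⟨j0, hj0lt, hj0m, l1, hl1, hl1e, hfv⟩ := hfv
    left
    refine conflict (ν := nod S) (AL := aL S) hG hrR hQ (c := c0) (n := m) (p := P)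
      (E := fun i => H192.me (D i)) hs (fun i hi => hUQ _ (hch i hi).1) nj
      ⟨i0, hi0, hmin, hiG, by rw [nod_me]; exact k3⟩
      {e | ∃ l, M0 ≤ l ∧ l ≤ M ∧ e = H192.me (run p k A l)}
      ⟨j0, hj0lt, hj0m, ⟨l1, hl1, by rw [hl1e]⟩, ?_⟩ ?_ (by rw [hP0]; exact hq)
        (by rw [hP0]; exact hqt) ht
    · rcases hfv with h1 | h1
      · exact Or.inr ⟨l1, h1, hl1, by rw [hl1e]⟩
      · left
        rw [nod_me]
        exact h1
    · rintro j hj ⟨l, h1, h2, h3⟩ e he c'
      have h3' : H192.me (D j) = H192.me (run p k A l) := h3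
      have h4 : Tch z R (H192.me (run p k A l)) := by
        rw [← h3']
        exact hTc _ (hch j hj).1
      have he' : e ∈ Arc (FK.Bq z R) ω (H192.me (run p k A l)) := by
        rw [← h3']
        exact he
      rw [hP0]
      exact hnt l h1 h2 h4 e he' c'
  have hchn := chain_nodes ha hb hab
  rcases wb with wb | ⟨dt, t1, t2, lt, t3, t4, t5, ct, t6⟩
  · obtain ⟨m, P, D, hP0, hPm, hch⟩ := chain_index hchn
    have nj : ¬ Jn (nod S) z R ω (gM p k A M) (aL S) (P 0) (P m) := by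
      intro hJ
      rw [hP0, hPm] at hJ
      exact hn (hJJ hJ ⟨fa1, fa2⟩)
    refine main m P D hP0 hch nj ?_
    -- the last edge of the path
    have hs : ∀ i < m, US (nod S) z R (aL S) (P i) (P (i + 1)) (H192.me (D i)) := by
      intro i hi
      obtain ⟨h1, h2, c', h3, h4⟩ := hch i hi
      refine ⟨?_, hTc _ h1, c', ?_, ?_⟩
      · show (H192.me' (H192.me (D i))).1 ∈ verts S
        rw [H192.me'_me]
        exact h2
      · rw [nod_me]; exact h3
      · rw [nod_me]; exact h4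
    have hoff : ∀ j, j ≤ m → ∀ i, i ≤ j → (∀ l, i ≤ l → l < j → H192.me (D l) ∉ gM p k A M) →
        Jn (nod S) z R ω (gM p k A M) (aL S) (P i) (P j) := by
      intro j
      induction j with
      | zero =>
        intro _ i hi _
        obtain rfl : i = 0 := by omega
        exact ReflTransGen.refl
      | succ j ih =>
        intro hj i hij hl
        rcases Nat.lt_or_ge j i with h1 | h1
        · obtain rfl : i = j + 1 := by omega
          exact ReflTransGen.refl
        · obtain ⟨g1, g2, c', g3, g4⟩ := hs j (by omega)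
          exact (ih (by omega) i h1 fun l h2 h3 => hl l h2 (by omega)).tail
            (Or.inl ⟨_, g1, hl j h1 (by omega), g2, c', g3, g4⟩)
    have hexx : ∃ i, i < m ∧ H192.me (D i) ∈ gM p k A M := by
      by_contra hno
      push Not at hno
      exact nj (hoff m le_rfl 0 (Nat.zero_le _) fun l _ h2 => hno l h2)
    obtain ⟨i0, hi0, hiG⟩ := hexx
    set j0 := Nat.findGreatest (fun j => j < m ∧ H192.me (D j) ∈ gM p k A M) m with hj0
    have hj0s : j0 < m ∧ H192.me (D j0) ∈ gM p k A M :=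
      Nat.findGreatest_spec (P := fun j => j < m ∧ H192.me (D j) ∈ gM p k A M) hi0.le
        ⟨hi0, hiG⟩
    have hj0m : ∀ i, j0 < i → i < m → H192.me (D i) ∉ gM p k A M := fun i h1 h2 h3 =>
      Nat.findGreatest_is_greatest h1 h2.le ⟨h2, h3⟩
    clear_value j0
    have hoffn := hoff m le_rfl (j0 + 1) (by omega) fun l h1 h2 => hj0m l (by omega) h2
    obtain ⟨hj0lt, l1, hl1, hl1e⟩ := hj0s
    obtain ⟨q1, q2, c1, q3, q4⟩ := hch j0 hj0lt
    by_cases hc1 : (!c1) = c
    · exact Or.inr (Or.inr ⟨j0, hj0lt, hj0m, l1, hl1, H192.me_inj hl1e,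
        Or.inr (by rw [q4, hc1])⟩)
    · have h3 : (!c1) = !c := by revert hc1; cases c1 <;> cases c <;> simp
      rw [h3] at q4
      rw [hPm] at hoffn
      rcases hgap b wb (D j0) q1 ⟨l1, hl1, hl1e⟩
        (by rw [← q4]; exact hoffn.symm hG) with h4 | h4
      · exact Or.inl h4
      · exact Or.inr (Or.inl h4)
  · -- the second node sees the strand of the tip
    have hch2 : ReflTransGen (Us S (Nr U)) a (ndm S ct dt) :=
      hchn.trans (by
        exact us_mono hNU t6)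
    obtain ⟨m, P, D, hP0, hPm, hDm, hch⟩ := chain_snoc hch2 (hNU t1) t2
    refine main (m + 1) P D hP0 hch ?_ (Or.inr (Or.inr ⟨m, by omega, fun i h1 h2 => by omega, lt,
      t4, by rw [hDm, t5], Or.inl t3⟩))
    intro hJ
    rw [hP0, hPm] at hJ
    have h7 : Tch z R (H192.me (run p k A lt)) := by rw [← t5]; exact hTc _ (hNU t1)
    refine hnt lt t3 t4 h7 _ (self_mem_Arc _ _ _) (!ct) ?_
    rw [← t5, nod_me]
    exact hJ

end

end Vale.Agent.P167.H174.BD
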