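import Vale.Agent.P167.H174.BD.B3s
import Vale.Agent.P167.H947.B3.Wl

/-!
# P167, general `q`: [BAD] is a theorem
-/

set_option autoImplicit false
set_option linter.unusedVariables false
set_option linter.unusedSectionVars false

namespace Vale.Agent.P167.H174.BD

open Filter Topology Set
open Vale.Agent.P167.E6 Vale.Agent.P167.E2
open Vale.Agent.P167.H446.G
open Vale.Agent.P167.QT

/-- (B3), one history, is 947's theorem. -/
theorem l_b3n : L_b3n := by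
  intro n p k S A δ hp hS h0 hk hA hδ j hj c z ρ R u w hC _ hρR hpath hbt hbf
  have hs : ∀ v : ℂ, Metric.closedBall v 2 ⊆ Metric.closedBall v 4 := fun v =>
    Metric.closedBall_subset_closedBall (by norm_num)
  exact H947.B3.b3_n hp hS hk hA h0 hδ hj hC hρR hpath
    (fun hc i h1 h2 h3 t h4 h5 => (hs _).trans (hbt hc i h1 h2 h3 t h4 h5))
    (fun hc i h1 h2 t h3 => (hs _).trans (hbf hc i h1 h2 t h3))

/-- **(B3)** -/
theorem p_b3 (Φ : (ℝ × ℝ) ≃ₜ (ℝ × ℝ)) (δ : ℕ → ℝ) (N k : ℕ → ℕ)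
    (p : ∀ n, ZMod (N n) → ℤ × ℤ) (S : ℕ → Finset (ℤ × ℤ)) (hA : Approx Φ δ N k p S) :
    P_b3 Φ δ N k p S := b3_of l_b3n Φ δ N k p S hA

/-- **[BAD]** -/
theorem b_bad {μ : ℝ} (h0 : 0 < μ) (h1 : μ < Real.pi / 3) : B_bad μ := b_bad_b3 h0 h1 p_b3

end Vale.Agent.P167.H174.BD
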