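import Vale.Agent.P167.H174.BD.Bn3

/-!
# P167, general `q`, [BAD]: walls in a small box

`walk_wall`: two nodes of a box are joined by unit steps off the past of the path inside of the box, or
the first one is joined in the box to a dart of the path or to a boundary node.
-/

set_option autoImplicit false
set_option linter.unusedVariables false
set_option linter.unusedSectionVars false

open Set Metric Relation

namespace Vale.Agent.P167.H174.BD

open Vale.Agent.P167.E6 Vale.Agent.P167.E2 Vale.Agent.P167.Fjord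
open Vale.Agent.P167.H166
open Vale.Agent.P167.H531.K

variable {n : ℕ} {p : ZMod n → ℤ × ℤ} {S : Finset (ℤ × ℤ)} {k : ℕ} {A : Finset (Sym2 (ℤ × ℤ))}
  {z : ℤ × ℤ} {M M0 : ℕ} {δ : ℝ}

/-- Unit steps between the sites of a box. -/
def St1 (z : ℤ × ℤ) (m : ℤ) (s t : ℤ × ℤ) : Prop :=
  nm (s - z) ≤ m ∧ nm (t - z) ≤ m ∧ ((t.1 = s.1 ∧ (t.2 = s.2 + 1 ∨ t.2 = s.2 - 1)) ∨
    (t.2 = s.2 ∧ (t.1 = s.1 + 1 ∨ t.1 = s.1 - 1)))

/-- The box is connected. -/
theorem box_conn {m : ℤ} {t : ℤ × ℤ} (ht : nm (t - z) ≤ m) : ∀ (N : ℕ) (s : ℤ × ℤ),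
    (s.1 - t.1).natAbs + (s.2 - t.2).natAbs = N → nm (s - z) ≤ m →
    ReflTransGen (St1 z m) s t := by
  intro N
  induction N with
  | zero =>
    intro s h1 h2
    have h3 : s = t := by
      have h4 : (s.1 - t.1).natAbs = 0 := by omega
      have h5 : (s.2 - t.2).natAbs = 0 := by omega
      ext <;> omega
    rw [h3]
  | succ N ih =>
    intro s h1 h2
    have h2' := h2
    have ht' := ht
    simp only [nm, Prod.fst_sub, Prod.snd_sub, max_le_iff, abs_le] at h2' ht'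
    by_cases h3 : s.1 = t.1
    · have h4 : s.2 ≠ t.2 := by intro h4; omega
      rcases lt_or_gt_of_ne h4 with h5 | h5
      · have h6 : nm ((s.1, s.2 + 1) - z) ≤ m := by
          simp only [nm, Prod.fst_sub, Prod.snd_sub, max_le_iff, abs_le]
          omega
        exact ReflTransGen.head ⟨h2, h6, Or.inl ⟨rfl, Or.inl rfl⟩⟩ (ih _ (by simp only; omega) h6)
      · have h6 : nm ((s.1, s.2 - 1) - z) ≤ m := by
          simp only [nm, Prod.fst_sub, Prod.snd_sub, max_le_iff, abs_le]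
          omega
        exact ReflTransGen.head ⟨h2, h6, Or.inl ⟨rfl, Or.inr rfl⟩⟩ (ih _ (by simp only; omega) h6)
    · rcases lt_or_gt_of_ne h3 with h5 | h5
      · have h6 : nm ((s.1 + 1, s.2) - z) ≤ m := by
          simp only [nm, Prod.fst_sub, Prod.snd_sub, max_le_iff, abs_le]
          omega
        exact ReflTransGen.head ⟨h2, h6, Or.inr ⟨rfl, Or.inl rfl⟩⟩ (ih _ (by simp only; omega) h6)
      · have h6 : nm ((s.1 - 1, s.2) - z) ≤ m := by
          simp only [nm, Prod.fst_sub, Prod.snd_sub, max_le_iff, abs_le]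
          omega
        exact ReflTransGen.head ⟨h2, h6, Or.inr ⟨rfl, Or.inr rfl⟩⟩ (ih _ (by simp only; omega) h6)

/-- The odd neighbours of an even site. -/
theorem nb_even {v s : ℤ × ℤ} (h : (s.1 = (H192.ro v).1 ∧ (s.2 = (H192.ro v).2 + 1 ∨
    s.2 = (H192.ro v).2 - 1)) ∨ (s.2 = (H192.ro v).2 ∧ (s.1 = (H192.ro v).1 + 1 ∨
    s.1 = (H192.ro v).1 - 1))) : ∃ r, H192.rf (face v r) = s := by
  obtain ⟨v1, v2⟩ := v
  obtain ⟨s1, s2⟩ := s
  simp only [H192.ro] at h
  rcases h with ⟨h1, h2 | h2⟩ | ⟨h1, h2 | h2⟩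
  · refine ⟨0, ?_⟩
    simp only [H192.rf, face]
    ext <;> simp <;> omega
  · refine ⟨2, ?_⟩
    simp only [H192.rf, face]
    ext <;> simp <;> omega
  · refine ⟨3, ?_⟩
    simp only [H192.rf, face]
    ext <;> simp <;> omega
  · refine ⟨1, ?_⟩
    simp only [H192.rf, face]
    ext <;> simp <;> omega

/-- The node of a site. -/
def nS (s : ℤ × ℤ) : Node := if Even (s.1 + s.2) then .V (H192.ro' s) else .F (H192.rf' s)

theorem nS_ro (v : ℤ × ℤ) : nS (H192.ro v) = .V v := by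
  unfold nS
  rw [if_pos (H192.even_ro v), H192.ro'_ro]

theorem nS_rf (f : ℤ × ℤ) : nS (H192.rf f) = .F f := by
  unfold nS
  rw [if_neg (H192.odd_rf f), H192.rf'_rf]

theorem nm_ro_rf (d : Medial) : nm (H192.ro d.1 - H192.rf (fc d)) ≤ 1 := by
  obtain ⟨⟨v1, v2⟩, r⟩ := d
  revert r
  refine forall4 ?_ ?_ ?_ ?_ <;> rw [nm_le] <;>
    simp only [fc_0, fc_1, fc_2, fc_3, H192.ro, H192.rf, Prod.fst_sub, Prod.snd_sub] <;> omega

/-- A boundary node of the colour `c`. -/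
def BN (p : ZMod n → ℤ × ℤ) (k : ℕ) (S : Finset (ℤ × ℤ)) (T : Set Medial) (c : Bool) (b : Node) :
    Prop :=
  ∃ dd ∈ T, ∃ i : ℕ, i < n ∧ dd.1 = p i ∧ fc dd ∉ S ∧ (k ≤ i ↔ c = true) ∧ b = ndm S c dd

/-- A wall: a dart of the path or a boundary node. -/
def WL (p : ZMod n → ℤ × ℤ) (k : ℕ) (S : Finset (ℤ × ℤ)) (A : Finset (Sym2 (ℤ × ℤ))) (M0 : ℕ)
    (T : Set Medial) (b : Node) : Prop :=
  (∃ c, BN p k S T c b) ∨ ∃ d ∈ T, d.1 ∈ verts S ∧ ∃ l ≤ M0, d = run p k A l ∧ ∃ c0, b = ndm S c0 d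

/-- The darts which are not on the path. -/
def oG (p : ZMod n → ℤ × ℤ) (k : ℕ) (A : Finset (Sym2 (ℤ × ℤ))) (M0 : ℕ) (T : Set Medial) :
    Set Medial := {d | d ∈ T ∧ ∀ l ≤ M0, d ≠ run p k A l}

section

variable (hp : IsPolygon p) (hS : Encloses p S)
include hp hS

/-- One step of the walk. -/
theorem walk_step {T : Set Medial} {a : Node} {m : ℤ}
    (hT : ∀ d : Medial, nm (H192.ro d.1 - z) ≤ m → d ∈ T) {s t : ℤ × ℤ} (hst : St1 z m s t)
    (hg : Good S (nS s)) (ha : ReflTransGen (Us S (oG p k A M0 T)) a (nS s)) :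
    (Good S (nS t) ∧ ReflTransGen (Us S (oG p k A M0 T)) a (nS t)) ∨
      ∃ b', ReflTransGen (Us S (oG p k A M0 T)) a b' ∧ WL p k S A M0 T b' := by
  classical
  obtain ⟨h1, h2, h3⟩ := hst
  by_cases hs : Even (s.1 + s.2)
  · obtain ⟨v, rfl⟩ : ∃ v, s = H192.ro v := ⟨_, (H192.ro_ro' hs).symm⟩
    obtain ⟨r, rfl⟩ := nb_even h3
    rw [nS_ro] at hg ha
    have hv : v ∈ verts S := hg
    have hd : ((v, r) : Medial) ∈ T := hT (v, r) h1
    by_cases hG : ∀ l ≤ M0, ((v, r) : Medial) ≠ run p k A l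
    · by_cases hf : face v r ∈ S
      · left
        rw [nS_rf]
        exact ⟨hf, ha.tail (us_vf hf ⟨hd, hG⟩)⟩
      · right
        obtain ⟨r', hr'⟩ := mem_verts.1 hv
        obtain ⟨i0, hi0⟩ := E2.exists_of_mixed hS hr' hf
        have hn0 : NeZero n := ⟨by have := hp.1; omega⟩
        have hi1 : ((i0.val : ℕ) : ZMod n) = i0 := ZMod.natCast_zmod_val i0
        by_cases hki : k ≤ i0.val
        · refine ⟨_, ha, Or.inl ⟨true, (v, r), hd, i0.val, ZMod.val_lt i0, ?_, hf, ?_, ?_⟩⟩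
          · rw [hi1]; exact hi0.symm
          · simp [hki]
          · exact (ndm_true (v, r)).symm
        · refine ⟨_, ha.tail ⟨(v, r), ⟨hd, hG⟩, hv, true, (ndm_true (v, r)).symm, rfl⟩,
            Or.inl ⟨false, (v, r), hd, i0.val, ZMod.val_lt i0, ?_, hf, ?_, rfl⟩⟩
          · rw [hi1]; exact hi0.symm
          · simp [hki]
    · right
      push Not at hG
      obtain ⟨l, hl, he⟩ := hG
      exact ⟨_, ha, Or.inr ⟨(v, r), hd, hv, l, hl, he, true, (ndm_true (v, r)).symm⟩⟩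
  · obtain ⟨f, rfl⟩ : ∃ f, s = H192.rf f := ⟨_, (H192.rf_rf' hs).symm⟩
    have ht : Even (t.1 + t.2) := by
      rw [Int.even_iff] at hs ⊢
      omega
    obtain ⟨v, rfl⟩ : ∃ v, t = H192.ro v := ⟨_, (H192.ro_ro' ht).symm⟩
    have h3' : ((H192.rf f).1 = (H192.ro v).1 ∧ ((H192.rf f).2 = (H192.ro v).2 + 1 ∨
        (H192.rf f).2 = (H192.ro v).2 - 1)) ∨ ((H192.rf f).2 = (H192.ro v).2 ∧
        ((H192.rf f).1 = (H192.ro v).1 + 1 ∨ (H192.rf f).1 = (H192.ro v).1 - 1)) := by omega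
    obtain ⟨r, hr⟩ := nb_even h3'
    have hr' : face v r = f := H192.rf_inj hr
    rw [nS_rf] at hg ha
    have hf : face v r ∈ S := by rw [hr']; exact hg
    have hv : v ∈ verts S := mem_verts.2 ⟨r, hf⟩
    have hd : ((v, r) : Medial) ∈ T := hT (v, r) h2
    have he : ndm S false (v, r) = .F f := by
      rw [ndm_false hf]
      show Node.F (face v r) = _
      rw [hr']
    by_cases hG : ∀ l ≤ M0, ((v, r) : Medial) ≠ run p k A l
    · left
      rw [nS_ro]
      refine ⟨hv, ha.tail ⟨(v, r), ⟨hd, hG⟩, hv, false, he.symm, ?_⟩⟩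
      exact (ndm_true (v, r)).symm
    · right
      push Not at hG
      obtain ⟨l, hl, he'⟩ := hG
      exact ⟨_, ha, Or.inr ⟨(v, r), hd, hv, l, hl, he', false, he.symm⟩⟩

/-- The walk. -/
theorem walk_sites {T : Set Medial} {a : Node} {m : ℤ}
    (hT : ∀ d : Medial, nm (H192.ro d.1 - z) ≤ m → d ∈ T) {s t : ℤ × ℤ}
    (hst : ReflTransGen (St1 z m) s t)
    (hg : Good S (nS s)) (ha : ReflTransGen (Us S (oG p k A M0 T)) a (nS s)) :
    (Good S (nS t) ∧ ReflTransGen (Us S (oG p k A M0 T)) a (nS t)) ∨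
      ∃ b', ReflTransGen (Us S (oG p k A M0 T)) a b' ∧ WL p k S A M0 T b' := by
  induction hst with
  | refl => exact Or.inl ⟨hg, ha⟩
  | tail _ h2 ih =>
    rcases ih with ⟨i1, i2⟩ | ih
    · exact walk_step hp hS hT h2 i1 i2
    · exact Or.inr ih

/-- The site of a node of the domain: a unit step off the path, or a wall. -/
theorem walk_start {T : Set Medial} {a : Node} (ha : Good S a) (hT : ∀ d, a = .O d → d ∈ T) :
    (∃ s, nm (s - (nod S).cor a) ≤ 1 ∧ Good S (nS s) ∧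
      ReflTransGen (Us S (oG p k A M0 T)) a (nS s)) ∨ WL p k S A M0 T a := by
  cases a with
  | V v =>
    left
    refine ⟨H192.ro v, ?_, ?_, ?_⟩
    · show nm (H192.ro v - H192.ro v) ≤ 1
      rw [sub_self]; simp [nm]
    · rw [nS_ro]; exact ha
    · rw [nS_ro]
  | F f =>
    left
    refine ⟨H192.rf f, ?_, ?_, ?_⟩
    · show nm (H192.rf f - H192.rf f) ≤ 1
      rw [sub_self]; simp [nm]
    · rw [nS_rf]; exact ha
    · rw [nS_rf]
  | O d =>
    obtain ⟨h1, h2⟩ := ha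
    by_cases hG : ∀ l ≤ M0, d ≠ run p k A l
    · left
      refine ⟨H192.ro d.1, ?_, ?_, ?_⟩
      · show nm (H192.ro d.1 - H192.rf (fc d)) ≤ 1
        exact nm_ro_rf d
      · rw [nS_ro]; exact h1
      · rw [nS_ro]
        exact ReflTransGen.single ⟨d, ⟨hT d rfl, hG⟩, h1, false, (ndm_false' h2).symm,
          (ndm_true d).symm⟩
    · right
      push Not at hG
      obtain ⟨l, hl, he⟩ := hG
      exact Or.inr ⟨d, hT d rfl, h1, l, hl, he, false, (ndm_false' h2).symm⟩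

/-- **The walk in a small box.** Two nodes of the box are joined off the path, or the first one is
joined to a wall. -/
theorem walk_wall {T : Set Medial} {a b : Node} {m : ℤ}
    (hT : ∀ d : Medial, nm (H192.ro d.1 - z) ≤ m → d ∈ T) (ha : Good S a) (hb : Good S b)
    (hma : nm ((nod S).cor a - z) + 1 ≤ m) (hmb : nm ((nod S).cor b - z) + 1 ≤ m)
    (hTa : ∀ d, a = .O d → d ∈ T) (hTb : ∀ d, b = .O d → d ∈ T) :
    ReflTransGen (Us S (oG p k A M0 T)) a b ∨
      ∃ b', ReflTransGen (Us S (oG p k A M0 T)) a b' ∧ WL p k S A M0 T b' := by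
  rcases walk_start hp hS (k := k) (A := A) (M0 := M0) (T := T) ha hTa with ⟨s, s1, s2, s3⟩ | h1
  swap
  · exact Or.inr ⟨a, ReflTransGen.refl, h1⟩
  obtain ⟨t, t1, t2, t3⟩ : ∃ t, nm (t - (nod S).cor b) ≤ 1 ∧ (Good S (nS t) →
      ReflTransGen (Us S (oG p k A M0 T)) a (nS t) →
      ReflTransGen (Us S (oG p k A M0 T)) a b ∨
        ∃ b', ReflTransGen (Us S (oG p k A M0 T)) a b' ∧ WL p k S A M0 T b') ∧ True := by
    cases b with
    | V v =>
      refine ⟨H192.ro v, ?_, fun _ h => Or.inl ?_, trivial⟩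
      · show nm (H192.ro v - H192.ro v) ≤ 1
        rw [sub_self]; simp [nm]
      · rw [nS_ro] at h; exact h
    | F f =>
      refine ⟨H192.rf f, ?_, fun _ h => Or.inl ?_, trivial⟩
      · show nm (H192.rf f - H192.rf f) ≤ 1
        rw [sub_self]; simp [nm]
      · rw [nS_rf] at h; exact h
    | O d =>
      obtain ⟨h1, h2⟩ := hb
      refine ⟨H192.ro d.1, ?_, fun _ h => ?_, trivial⟩
      · show nm (H192.ro d.1 - H192.rf (fc d)) ≤ 1
        exact nm_ro_rf d
      · rw [nS_ro] at h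
        by_cases hG : ∀ l ≤ M0, d ≠ run p k A l
        · exact Or.inl (h.tail ⟨d, ⟨hTb d rfl, hG⟩, h1, true, (ndm_true d).symm,
            (ndm_false' h2).symm⟩)
        · push Not at hG
          obtain ⟨l, hl, he⟩ := hG
          exact Or.inr ⟨_, h, Or.inr ⟨d, hTb d rfl, h1, l, hl, he, true, (ndm_true d).symm⟩⟩
  have hs : nm (s - z) ≤ m := by
    have e1 := nm_le.1 (le_refl (nm ((nod S).cor a - z)))
    have e2 := nm_le.1 s1
    simp only [Prod.fst_sub, Prod.snd_sub] at e1 e2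
    rw [nm_le]
    simp only [Prod.fst_sub, Prod.snd_sub]
    omega
  have ht : nm (t - z) ≤ m := by
    have e1 := nm_le.1 (le_refl (nm ((nod S).cor b - z)))
    have e2 := nm_le.1 t1
    simp only [Prod.fst_sub, Prod.snd_sub] at e1 e2
    rw [nm_le]
    simp only [Prod.fst_sub, Prod.snd_sub]
    omega
  rcases walk_sites hp hS hT (box_conn ht _ s rfl hs) s2 s3 with ⟨h1, h2⟩ | h1
  · exact t2 h1 h2
  · exact Or.inr h1

end

end Vale.Agent.P167.H174.BD
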