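import Vale.Agent.P167.H174.BD.Asm2
import Vale.Agent.P167.H531.Q.B1

/-!
# P167, general `q`, [BAD]: (B1) plugged in
-/

set_option autoImplicit false
set_option linter.unusedVariables false
set_option linter.unusedSectionVars false

namespace Vale.Agent.P167.H174.BD

open Filter Topology Set
open Vale.Agent.P167.E6 Vale.Agent.P167.E2
open Vale.Agent.P167.H446.G
open Vale.Agent.P167.QT

/-- (B1) is 531's theorem. -/
theorem l_b1 : L_b1 := by
  intro n p k S A δ hp hS h0 hk hA hδ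
  exact fun {j} hj {c zc ρ Rc u w} hC {x q} hx hxm hq hqp {s} hρs hloc {z r R h H col} hz hrR hRc
    hh hH hst hen hN {ω} hω hout {t} hqt ht =>
    H531.K.b1 hp hS h0 hk hA hδ hj hC hx hxm hq hqp hρs hloc hz hrR hRc hh hH hst hen hN hω hout hqt ht

/-- **[BAD]** from the block (B3). -/
theorem b_bad_b3 {μ : ℝ} (h0 : 0 < μ) (h1 : μ < Real.pi / 3)
    (hb3 : ∀ (Φ : (ℝ × ℝ) ≃ₜ (ℝ × ℝ)) (δ : ℕ → ℝ) (N k : ℕ → ℕ)
      (p : ∀ n, ZMod (N n) → ℤ × ℤ) (S : ℕ → Finset (ℤ × ℤ)), Approx Φ δ N k p S →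
      P_b3 Φ δ N k p S) : B_bad μ := by
  refine b_bad_of ?_ l_b1 hb3
  have h2 : Real.cos (Real.pi / 3) ≤ Real.cos μ :=
    Real.cos_le_cos_of_nonneg_of_le_pi h0.le (by linarith [Real.pi_pos]) h1.le
  rw [Real.cos_pi_div_three] at h2
  linarith

end Vale.Agent.P167.H174.BD
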