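import Vale.Agent.P167.H446.G.Lit
import Vale.Agent.P167.H174.CT.Bad3
import Vale.Agent.P167.H531.Q.Lk3
import Vale.Agent.P167.H469.Ra2

/-!
# P167, general `q`, [BAD]: the literal statements of the blocks

`P_arm` (arms in the thick configuration), `P_b1` (a conflict pair far from the marked points with an
arm of the other colour at a frozen square gives three strands, or two strands and the boundary),
`P_b3` (no conflict pairs near `a` if the path does not return), `P_ret` (the path does not return).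
-/

set_option autoImplicit false

namespace Vale.Agent.P167.H174.BD

open Filter Topology Set
open Relation (ReflTransGen)
open Vale.Agent.P145.FB (PStep)
open Vale.Agent.P167.FKA (Cor)
open Vale.Agent.P167.E6 Vale.Agent.P167.E2
open Vale.Agent.P167.H718 (Dq)
open Vale.Agent.P167.H634 (SqD)
open Vale.Agent.P167.H72.SD (dk Wr)
open Vale.Agent.P167.H713.Q (Cn Cfl)
open Vale.Agent.P167.H446.G (rS rR)
open Vale.Agent.P167.H174.CT (NearC thk rep T32)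
open Vale.Agent.P167.H531.Q (BC)
open Vale.Agent.P167.H411 (exn)

/-- **(ARM)** (825) A path of unread squares of the colour `!c` from a site `q` of the box which leaves
the box, or (`c = false`) which ends at a corner of an open square off the unread squares, gives a path of
squares of the colour `!c` of the thick configuration inside of the box to its boundary. -/
def P_arm : Prop := ∀ {n : ℕ} (p : ZMod n → ℤ × ℤ) (k : ℕ) (S : Finset (ℤ × ℤ)), IsPolygon p →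
  Encloses p S → 0 < k → k + 1 < n → ∀ A ⊆ edges S, ∀ j ≤ len p k A + 1,
  ∀ (z : ℤ × ℤ) (R : ℤ) (c col : Bool), NearC p k z R col →
    R + 4 < nm (H192.ro (p 0) - z) → R + 4 < nm (H192.ro (p k) - z) →
    ∀ q t : ℤ × ℤ, (q.1 + q.2) % 2 = QC.par (!c) → nm (q - z) ≤ R →
    ReflTransGen (PStep {v | v ∈ dk p k S A j ∧ H192.cfg (wiredOpen p k A) v = !c}) q t →
    (R < nm (t - z) ∨ (c = false ∧ t ∈ Wr (dk p k S A j) (H192.cfg (wiredOpen p k A)))) →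
    ∃ t', BC z R t' ∧ ReflTransGen (PStep {v | v ∈ FK.Bq z R ∧
      rep (Dq S p k) (thk p k S z R col) (H192.cfg (wiredOpen p k A)) v = !c}) q t'

section

variable (Φ : (ℝ × ℝ) ≃ₜ (ℝ × ℝ)) (δ : ℕ → ℝ) (N k : ℕ → ℕ) (p : ∀ n, ZMod (N n) → ℤ × ℤ)
  (S : ℕ → Finset (ℤ × ℤ)) (ψn : ℕ → ℂ → ℂ)

/-- **(B1)** (531) A conflict pair (centre `zc`) with an arm of the other colour at a corner `q` of a
square which meets the component of `u`, in a box (centre `z`, radii `r`, `R`) far from the marked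
points. -/
def P_b1 : Prop := ∀ η : ℝ, 0 < η → ∃ s₀ : ℝ, 0 < s₀ ∧ ∀ s : ℝ, 0 < s → s ≤ s₀ → ∀ᶠ n in atTop,
  ∀ A ⊆ edges (S n), ∀ j ≤ len (p n) (k n) A + 1, ∀ (c col : Bool) (zc z : ℤ × ℤ) (Rc : ℕ) (r R : ℤ)
    (h : ℕ) (u w : ℂ), Cfl (p n) (k n) (S n) A j (δ n) c zc (rS s (δ n)) Rc u w →
    NearC (p n) (k n) z R col →
    ((nm (zc - z) : ℤ) : ℝ) + rS s (δ n) + η / δ n + 40 ≤ r → r ≤ R → nm (zc - z) + R + 20 ≤ Rc →
    R + 20 < nm (H192.ro (p n 0) - z) → R + 20 < nm (H192.ro (p n (k n)) - z) → η / δ n ≤ h →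
    ∀ x ∈ dk (p n) (k n) (S n) A j,
      (SqD (δ n) x ∩ Cn (p n) (k n) (S n) A j (δ n) zc (rS s (δ n)) u).Nonempty →
    ∀ q : ℤ × ℤ, Cor x q → (q.1 + q.2) % 2 = QC.par (!c) → ∀ t, BC z R t →
      ReflTransGen (PStep {v | v ∈ FK.Bq z R ∧ rep (Dq (S n) (p n) (k n))
        (thk (p n) (k n) (S n) z R col) (H192.cfg (wiredOpen (p n) (k n) A)) v = !c}) q t →
      rep (Dq (S n) (p n) (k n)) (thk (p n) (k n) (S n) z R col)
        (H192.cfg (wiredOpen (p n) (k n) A)) ∈ T32 (Dq (S n) (p n) (k n)) col z r R h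

/-- The path leaves the ball of radius `r₁` around `a` and returns to the ball of radius `r₂`. -/
def Ret (n : ℕ) (r₁ r₂ : ℝ) (A : Finset (Sym2 (ℤ × ℤ))) : Prop :=
  ∃ t0 t1 : ℕ, t0 ≤ t1 ∧ t1 < len (p n) (k n) A ∧
    r₁ < dist (mid (δ n) (run (p n) (k n) A t0)) (bc Φ 0) ∧
    dist (mid (δ n) (run (p n) (k n) A t1)) (bc Φ 0) < r₂

/-- **(B3)** (476) No conflict pair near `a`. -/
def P_b3 : Prop := ∀ r : ℝ, 0 < r → ∃ r₁ : ℝ, 0 < r₁ ∧ r₁ ≤ dist (bc Φ 0) (bc Φ Real.pi) ∧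
  ∀ r₂ : ℝ, 0 < r₂ → ∃ r₃ : ℝ, 0 < r₃ ∧ ∃ s₀ : ℝ, 0 < s₀ ∧ ∀ s : ℝ, 0 < s → s ≤ s₀ →
    ∀ᶠ n in atTop, ∀ A ⊆ edges (S n), ∀ j ≤ len (p n) (k n) A + 1, ¬ Ret Φ δ N k p n r₁ r₂ A →
      ∀ z : ℤ × ℤ, dist ((δ n : ℂ) * CT.ps z) (bc Φ 0) ≤ r₃ → ∀ (c : Bool) (u w : ℂ),
        ¬ Cfl (p n) (k n) (S n) A j (δ n) c z (rS s (δ n)) (rR r (δ n)) u w

open Classical in
/-- **(RET)** (437) The path does not return to `a`. -/
def P_ret (q : ℝ) : Prop := ∀ r₁ : ℝ, 0 < r₁ → r₁ ≤ dist (bc Φ 0) (bc Φ Real.pi) → ∀ ε : ℝ, 0 < ε →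
  ∃ r₂ : ℝ, 0 < r₂ ∧ ∀ᶠ n in atTop,
    QE.ExW (exn δ N k p S ψn n).C (QE.wq q (N n) (p n) (k n) (S n))
      ({A | Ret Φ δ N k p n r₁ r₂ A}.indicator 1) ≤ ε

end

end Vale.Agent.P167.H174.BD
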