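import Vale.Agent.P167.H174.BD.Lit
import Vale.Agent.P167.H476.Q.Out

set_option autoImplicit false

namespace Vale.Agent.P167.H174.BD

open Set
open Vale.Agent.P167.E6 Vale.Agent.P167.E2
open Vale.Agent.P167.H166
open Vale.Agent.P167.H718 (Dq wE)
open Vale.Agent.P167.H174.CT (NearC thk rep T32 thk_fw thk_fo)
open Vale.Agent.P167.H531.Q (BC Tch)

variable {n : ℕ} {p : ZMod n → ℤ × ℤ} {S : Finset (ℤ × ℤ)} {k : ℕ} {A : Finset (Sym2 (ℤ × ℤ))}
  {z : ℤ × ℤ} {R : ℤ} {col : Bool}

/-- The thick configuration agrees with the configuration on the squares of the path in the box. -/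
theorem rep_run (hp : IsPolygon p) (hS : Encloses p S) (h0 : 0 < k) (hk : k < n) (hA : A ⊆ edges S)
    (hN : NearC p k z R col) (hst : ¬ Tch z R (H192.me (cs p)))
    (hen : hdv (H192.me (ce p k)) ∉ FK.Bq z R) {m : ℕ} (hm : m ≤ len p k A)
    (hv : hdv (H192.me (run p k A m)) ∈ FK.Bq z R) :
    rep (Dq S p k) (thk p k S z R col) (H192.cfg (wiredOpen p k A)) (hdv (H192.me (run p k A m))) =
      H192.cfg (wiredOpen p k A) (hdv (H192.me (run p k A m))) := by
  classical
  have hed : H192.ed (hdv (H192.me (run p k A m))) = ahead (run p k A m) := H192.ed_hdv_me _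
  by_cases hD : hdv (H192.me (run p k A m)) ∈ Dq S p k
  · unfold rep
    rw [if_pos hD]
  have e1 : rep (Dq S p k) (thk p k S z R col) (H192.cfg (wiredOpen p k A))
      (hdv (H192.me (run p k A m))) = thk p k S z R col (hdv (H192.me (run p k A m))) := by
    unfold rep
    rw [if_neg hD]
  rw [e1]
  by_cases hw : H192.ed (hdv (H192.me (run p k A m))) ∈ wE p k
  · rw [thk_fw hp hN hw]
    exact (H192.cfg_true.2 (H718.mem_wiredOpen.2 (Or.inr hw))).symm
  have hE : H192.ed (hdv (H192.me (run p k A m))) ∉ edges S := fun hE =>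
    hD (H718.mem_Dq'.2 ⟨hE, hw⟩)
  have hc : H192.cfg (wiredOpen p k A) (hdv (H192.me (run p k A m))) = false := by
    rw [← Bool.not_eq_true, H192.cfg_true, H718.mem_wiredOpen, not_or]
    exact ⟨fun h => hE (hA h), hw⟩
  rw [hc]
  have hml : m < len p k A := by
    rcases hm.lt_or_eq with h | h
    · exact h
    · exfalso
      rw [h, run_len hp hS hk hA] at hv
      exact hen hv
  rw [hed] at hE
  rcases H161.run_state hp hS h0 hk hA hml with h1 | h1 | ⟨i, hi, h1, h2⟩
  · exfalso
    rw [h1] at hv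
    exact hst (Or.inl hv)
  · exfalso
    apply hE
    show s((run p k A m).1, (run p k A m).1 + dir ((run p k A m).2 + 1)) ∈ edges S
    rw [mem_edges]
    right
    rw [add_sub_cancel_right]
    exact h1
  · refine (thk_fo hp hS hk.le hN ⟨i, (run p k A m).2, hi, ?_, ?_, ?_⟩).1
    · rw [← h1]; exact h2
    · intro h3
      apply hE
      show s((run p k A m).1, (run p k A m).1 + dir ((run p k A m).2 + 1)) ∈ edges S
      rw [mem_edges]
      left
      rw [h1]
      exact h3
    · rw [H192.hdv_me, ← h1]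
      rfl

end Vale.Agent.P167.H174.BD
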